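import Crest.Agent.X212.M.Wall

/-!
# Row 212, HD-MIX (helper2): the pieces of the mixed cell
-/

set_option autoImplicit false
set_option linter.unusedSectionVars false
noncomputable section
open Set Function Classical

namespace Crest.Agent.X212.Klp2.Mx
open M

variable {X A : Type} [TopologicalSpace X] [ConnectedSpace X] (S : Sys X A) (a s : A)

/-- the head -/
def rH : Reg A := fun x => if x = a then some true else if x = s then some false else none

/-- the region closed up by the head -/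
def r0 (π : Reg A) : Reg A := update (update π a none) s (some false)

/-- the new parameter -/
def tN (t : A → ℝ) : A → ℝ := fun x =>
  if x = s then 1 else if x = a ∨ (S.w x).band ⊆ (S.w a).sd false then t x else 0

/-- a piece on the left of `a`, a wall `s` on the right -/
structure Cb (e : Set A) (π : Reg A) : Prop where
  cm : S.Cmp a s
  sa : (S.w s).band ⊆ (S.w a).sd true
  as : (S.w a).band ⊆ (S.w s).sd false
  ce : S.Cell e
  pc : S.Piece e π
  pa : π a = some false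

/-- the new cell -/
def cN (e : Set A) : Set A := {x | x = a ∨ x = s ∨ x ∈ e ∧ (S.w x).band ⊆ (S.w a).sd false}

/-- its pinch walls -/
def c0 (e : Set A) : Set A := {x | x = s ∨ x ∈ e ∧ (S.w x).band ⊆ (S.w a).sd false}

variable {S a s}

theorem not_two {x : A} {b : Bool} (h : (S.w x).band ⊆ (S.w a).sd b) :
    ¬(S.w x).band ⊆ (S.w a).sd (!b) := fun k =>
  let ⟨_, h1⟩ := (S.w x).ne true; (S.w a).not_mem_sd (h h1.1) (k h1.1)

theorem not_self (b : Bool) : ¬(S.w a).band ⊆ (S.w a).sd b := fun k =>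
  let ⟨_, h1⟩ := (S.w a).ne (!b); (S.w a).not_mem_sd (k h1.1) h1.2

namespace Cb
variable {e : Set A} {π : Reg A} (h : Cb S a s e π)
include h

theorem ne : s ≠ a := fun k => not_self (S := S) (a := a) true (k ▸ h.sa)

theorem ae : a ∈ e := h.pc.bd_subset (Sys.mem_bd_of h.pa)

theorem sub : (S.w a).sd false ⊆ (S.w s).sd false :=
  subset_union_left.trans (Wall.nest h.cm h.sa h.as)

theorem Ua : S.U π ⊆ (S.w a).sd false := fun _ k => k _ _ h.pa

theorem bd {x : A} (hx : x ∈ Sys.bd π) (k : x ≠ a) : x ∈ e ∧ (S.w x).band ⊆ (S.w a).sd false :=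
  ⟨h.pc.bd_subset hx, h.pc.toIsReg.band_subset k h.pa hx⟩

theorem ps : π s = none := by_contra fun k => not_two h.sa (h.bd k h.ne).2

theorem cmp_s {x : A} (k : (S.w x).band ⊆ (S.w a).sd false) : S.Cmp s x :=
  (S.w a).dj.mono h.sa k

theorem cell {σ : Set A} (hσ : S.Cell σ) (ha : a ∈ σ) : S.Cell (cN S a s σ) := by
  have k : ∀ x, x ∈ σ ∧ (S.w x).band ⊆ (S.w a).sd false → S.Cmp a x := fun x j =>
    hσ ha j.1 (by rintro rfl; exact not_self _ j.2)
  rintro x (rfl | rfl | hx) y (rfl | rfl | hy) n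
  exacts [(n rfl).elim, h.cm, k _ hy, h.cm.symm, (n rfl).elim, h.cmp_s hy.2, (k _ hx).symm,
    (h.cmp_s hx.2).symm, hσ hx.1 hy.1 n]

theorem c0_sub : c0 S a s e ⊆ cN S a s e := fun _ k => .inr k

theorem pcL : S.Piece (cN S a s e) π := by
  refine ⟨h.pc.toIsReg, fun x hx => ?_, ?_⟩
  · by_cases k : x = a
    exacts [.inl k, .inr (.inr (h.bd hx k))]
  · rintro x (rfl | rfl | hx) k
    · exact Sys.mem_bd_of h.pa k.1
    · exact not_two h.sa (k.2.1.trans h.Ua)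
    · exact h.pc.not_inn x hx.1 k

theorem rH_a : rH a s a = some true := if_pos rfl

theorem rH_s : rH a s s = some false := (if_neg h.ne).trans (if_pos rfl)

theorem rH_o {x : A} (k : x ≠ a) (k' : x ≠ s) : rH a s x = none := (if_neg k).trans (if_neg k')

theorem rH_cases {x : A} {b : Bool} (k : rH a s x = some b) :
    x = a ∧ b = true ∨ x = s ∧ b = false := by
  by_cases k1 : x = a
  · exact .inl ⟨k1, by rw [k1, h.rH_a] at k; exact (Option.some.inj k).symm⟩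
  by_cases k2 : x = s
  · exact .inr ⟨k2, by rw [k2, h.rH_s] at k; exact (Option.some.inj k).symm⟩
  · rw [h.rH_o k1 k2] at k; cases k

theorem mem_rH {z : X} : z ∈ S.U (rH a s) ↔ z ∈ (S.w a).sd true ∧ z ∈ (S.w s).sd false :=
  ⟨fun k => ⟨k _ _ h.rH_a, k _ _ h.rH_s⟩, fun k x b j => by
    rcases h.rH_cases j with ⟨rfl, rfl⟩ | ⟨rfl, rfl⟩
    exacts [k.1, k.2]⟩

theorem bd_rH : Sys.bd (rH a s) ⊆ cN S a s e := fun x hx => by
  obtain ⟨b, k⟩ := Sys.mem_bd.1 hx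
  rcases h.rH_cases k with ⟨rfl, -⟩ | ⟨rfl, -⟩
  exacts [.inl rfl, .inr (.inl rfl)]

theorem pcR : S.Piece (cN S a s e) (rH a s) := by
  refine ⟨⟨(h.cell h.ce h.ae).mono h.bd_rH, fun x b k z hz => h.mem_rH.2 ?_⟩, h.bd_rH, ?_⟩
  · rcases h.rH_cases k with ⟨rfl, rfl⟩ | ⟨rfl, rfl⟩
    exacts [⟨hz.2, h.as hz.1⟩, ⟨h.sa hz.1, hz.2⟩]
  · rintro x (rfl | rfl | hx) k
    · exact Sys.mem_bd_of h.rH_a k.1
    · exact Sys.mem_bd_of h.rH_s k.1
    · exact not_two hx.2 fun z hz => (h.mem_rH.1 (k.2.1 hz)).1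

theorem r0_s : r0 a s π s = some false := update_self ..

theorem r0_a : r0 a s π a = none := (update_of_ne h.ne.symm _ _).trans (update_self ..)

theorem r0_o {x : A} (k : x ≠ a) (k' : x ≠ s) : r0 a s π x = π x :=
  (update_of_ne k' _ _).trans (update_of_ne k _ _)

theorem r0_cases {x : A} {b : Bool} (k : r0 a s π x = some b) :
    x = s ∧ b = false ∨ x ≠ a ∧ π x = some b := by
  by_cases k2 : x = s
  · exact .inl ⟨k2, by rw [k2, h.r0_s] at k; exact (Option.some.inj k).symm⟩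
  by_cases k1 : x = a
  · rw [k1, h.r0_a] at k; cases k
  · exact .inr ⟨k1, h.r0_o k1 k2 ▸ k⟩

theorem mem_r0 {z : X} : z ∈ S.U (r0 a s π) ↔
    z ∈ (S.w s).sd false ∧ ∀ x b, x ≠ a → π x = some b → z ∈ (S.w x).sd b := by
  refine ⟨fun k => ⟨k _ _ h.r0_s, fun x b k1 k2 => k x b ((h.r0_o k1 ?_).trans k2)⟩,
    fun k x b j => ?_⟩
  · rintro rfl; rw [h.ps] at k2; cases k2
  · rcases h.r0_cases j with ⟨rfl, rfl⟩ | j
    exacts [k.1, k.2 x b j.1 j.2]

theorem U_r0 : S.U (r0 a s π) = S.U (update π a none) ∩ (S.w s).sd false := by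
  ext z
  rw [h.mem_r0, mem_inter_iff, and_comm]
  refine and_congr_left' ⟨fun k x b j => ?_, fun k x b k1 k2 => k x b ((update_of_ne k1 _ _).trans k2)⟩
  by_cases k1 : x = a
  · rw [k1, update_self] at j; cases j
  · exact k x b k1 ((update_of_ne k1 _ _).symm.trans j)

theorem out {z : X} (hz : z ∉ (S.w a).sd false) {x : A} {b : Bool} (k : x ≠ a) (j : π x = some b) :
    z ∈ (S.w x).sd b := h.pc.toIsReg.compl_subset k.symm h.pa j hz

theorem UL : S.U π ⊆ S.U (r0 a s π) := fun _ k =>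
  h.mem_r0.2 ⟨h.sub (h.Ua k), fun x b _ j => k x b j⟩

theorem UR : S.U (rH a s) ⊆ S.U (r0 a s π) := fun _ k =>
  h.mem_r0.2 ⟨(h.mem_rH.1 k).2, fun _ _ => h.out ((S.w a).not_mem_sd (h.mem_rH.1 k).1)⟩

theorem bd_r0 : Sys.bd (r0 a s π) ⊆ c0 S a s e := fun x hx => by
  obtain ⟨b, k⟩ := Sys.mem_bd.1 hx
  rcases h.r0_cases k with ⟨rfl, -⟩ | k
  exacts [.inl rfl, .inr (h.bd (Sys.mem_bd_of k.2) k.1)]

theorem mem_L {z : X} (k : z ∈ S.U (r0 a s π)) (j : z ∈ (S.w a).sd false) : z ∈ S.U π :=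
  fun x b l => by
    by_cases n : x = a
    · subst n; rwa [← Option.some.inj (h.pa.symm.trans l)]
    · exact (h.mem_r0.1 k).2 x b n l

theorem pc0 : S.Piece (c0 S a s e) (r0 a s π) := by
  refine ⟨⟨(h.cell h.ce h.ae).mono (h.bd_r0.trans h.c0_sub), fun x b k z hz => ?_⟩, h.bd_r0, ?_⟩
  · rcases h.r0_cases k with ⟨rfl, rfl⟩ | k
    exacts [h.UR (h.mem_rH.2 ⟨h.sa hz.1, hz.2⟩), h.UL (h.pc.adj x b k.2 hz)]
  · rintro x (rfl | hx) k
    · exact Sys.mem_bd_of h.r0_s k.1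
    have n1 : x ≠ a := by rintro rfl; exact not_self _ hx.2
    have n2 : x ≠ s := by rintro rfl; exact not_two h.sa hx.2
    have n3 : π x = none := (h.r0_o n1 n2).symm.trans k.1
    exact h.pc.not_inn x hx.1 ⟨n3, fun z hz => h.mem_L (k.2.1 hz) (hx.2 hz), fun y hy =>
      h.ce hx.1 (h.pc.bd_subset hy) (by rintro rfl; exact hy n3)⟩

theorem inn : a ∈ S.inn (r0 a s π) :=
  ⟨h.r0_a, fun _ hz => h.mem_r0.2 ⟨h.as hz, fun _ _ k j =>
    h.pc.toIsReg.band_subset k.symm j (Sys.mem_bd_of h.pa) hz⟩, fun y hy =>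
    h.cell h.ce h.ae (.inl rfl) (h.c0_sub (h.bd_r0 hy)) (by rintro rfl; exact hy h.r0_a)⟩

theorem ins {ρ : Reg A} (k : S.Piece (cN S a s e) ρ) (j : S.U ρ ⊆ S.U (r0 a s π)) :
    ρ = π ∨ ρ = rH a s := by
  have c := h.cell h.ce h.ae
  obtain ⟨z, hz⟩ := k.toIsReg.nonempty
  obtain ⟨_ | _, l⟩ := k.side c (.inl rfl : a ∈ cN S a s e)
  · exact .inl (k.unique c h.pcL hz (h.mem_L (j hz) (l hz)))
  · exact .inr (k.unique c h.pcR hz (h.mem_rH.2 ⟨l hz, (h.mem_r0.1 (j hz)).1⟩))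

variable {t : A → ℝ}

theorem tN_s : tN S a s t s = 1 := if_pos rfl

theorem tN_l {x : A} (k : x = a ∨ (S.w x).band ⊆ (S.w a).sd false) : tN S a s t x = t x := by
  refine (if_neg ?_).trans (if_pos k)
  rintro rfl
  exact k.elim h.ne (not_two h.sa)

theorem tN_ne {x : A} (k : tN S a s t x ≠ 0) :
    x = s ∨ (x = a ∨ (S.w x).band ⊆ (S.w a).sd false) ∧ t x ≠ 0 := by
  by_cases k1 : x = s
  · exact .inl k1
  by_cases k2 : x = a ∨ (S.w x).band ⊆ (S.w a).sd false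
  · exact .inr ⟨k2, by rwa [h.tN_l k2] at k⟩
  · exact (k ((if_neg k1).trans (if_neg k2))).elim

theorem tN_inf (ht : Sys.inf t = e) : Sys.inf (tN S a s t) = cN S a s e := by
  ext x
  refine ⟨fun (k : _ = _) => ?_, ?_⟩
  · rcases h.tN_ne (k ▸ one_ne_zero) with j | ⟨j, -⟩
    · exact .inr (.inl j)
    · exact j.elim .inl fun l => .inr (.inr ⟨ht ▸ (h.tN_l j).symm.trans k, l⟩)
  · rintro (rfl | rfl | k)
    exacts [(h.tN_l (.inl rfl)).trans (ht.ge h.ae), h.tN_s, (h.tN_l (.inr k.2)).trans (ht.ge k.1)]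

theorem tN_par (hp : t ∈ S.Par) (ht : Sys.inf t = e) : tN S a s t ∈ S.Par := by
  refine ⟨fun x => ?_, (h.cell hp.2 (Sys.inf_subset t (ht.ge h.ae))).mono fun x k => ?_⟩
  · unfold tN
    split_ifs
    exacts [⟨zero_le_one, le_rfl⟩, hp.1 x, ⟨le_rfl, zero_le_one⟩]
  · rcases h.tN_ne k with j | ⟨j | j, l⟩
    exacts [.inr (.inl j), .inl j, .inr (.inr ⟨l, j⟩)]

end Cb

end Crest.Agent.X212.Klp2.Mx
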