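import Crest.Agent.X212.Klp2.MxA
import Crest.Agent.X212.Klp2.MxB
import Crest.Agent.X212.Hd82.Defs
import Crest.Agent.X212.G75.Dat
import Crest.Agent.X212.Fex7.Iso
import Crest.Agent.X212.Add46.Cut

/-!
# Row 212, HD-MIX (helper2): the left patch, the trivial job, the assembly
-/

set_option autoImplicit false
set_option linter.unusedSectionVars false
noncomputable section
open Set Function Filter Topology
open scoped ContDiff Manifold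

namespace Crest.Agent.X212.Klp2.Mx
open An M G75 Nd18 Rf65 Add46 Hd82 Ink3
open Dr59 (mf)
open Met55 (atx Co)
open Line51 (th)

variable {κ lam : Type} [Fintype κ] [Fintype lam] [DecidableEq lam]

section job
variable {X : Mf 4} {A : Type} [Fintype A] {M : Mark X A κ} {W : World M} {N : ML M lam}

/-- the trivial job -/
@[reducible] def jb0 (Λ : Lns W N) (G : XG Empty N) (m : M.Cl) (p : Prm A) :
    Job Empty Λ Empty Empty 0 0 :=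
  ⟨m, ∅, Empty.elim, fun _ => p, 0, Empty.elim, Empty.elim, Empty.elim, Empty.elim, Empty.elim,
    Empty.elim, G.xs, G.g, fun _ _ => 0, G.K Λ m⟩

theorem jb0_ok (Λ : Lns W N) (G : XG Empty N) (m : M.Cl) (p : Prm A) : (jb0 Λ G m p).OK where
  down _ h := h.elim
  soft _ h := h.elim
  inj a := a.elim
  sm := contDiff_const
  par _ h := h.elim
  inf _ h := h.elim
  lin := ⟨0, zero_lt_one, fun a => a.elim⟩
  mem a := a.elim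
  tw a := a.elim
  co a := a.elim
  nb a := a.elim
  dj a := a.elim
  ct _ h := h.elim
  tc a := a.elim
  cc a := a.elim
  xs := G.ok
  iso := G.iso
  ν _ := contDiff_const
  ν0 _ _ h := (h rfl).elim
  nk := G.isNk Λ m

theorem cast_en {Wi : Type} {Λ : Lns W N} {m c : M.Cl} {p : Prm A} {a : A} {b : Option Bool}
    {S S₁ : Xs Wi κ lam} (h : S = S₁) {g : S.Y.M ≃ₘ^∞⟮S.Y.I, (M.bn a).Y.I⟯ (M.bn a).Y.M}
    {g₁ : S₁.Y.M ≃ₘ^∞⟮S₁.Y.I, (M.bn a).Y.I⟯ (M.bn a).Y.M} (hg : HEq g g₁)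
    {K : Nk S.D (Λ.B m c) (Λ.G m c p)} (hK : IsNk a b g K) :
    ∃ K₁ : Nk S₁.D (Λ.B m c) (Λ.G m c p), IsNk a b g₁ K₁ ∧ ∀ o,
      (⟨⟨S.Y, S.D, S.N⟩, K, o⟩ : En (Λ.B m c) (Λ.G m c p)) = ⟨⟨S₁.Y, S₁.D, S₁.N⟩, K₁, o⟩ := by
  subst h
  cases hg
  exact ⟨K, hK, fun _ => rfl⟩

theorem heq_g {Wi : Type} {a : A} {T T' : XG1 Wi N a} (h : T = T') : HEq T.g T'.g := by
  subst h; rfl

/-- a piece with one end -/
@[reducible] def uqE {c : M.Cl} {π : Reg A} {a : A} {e : Bool} (ha : a ∈ cylW c) (k : π a = some e)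
    (h : ∀ x ∈ cylW c, x ∈ Sys.bd π → x = a) : Unique (EdP c {π}) where
  default := toE ha k
  uniq i := by
    have j := h _ i.1.1.2 (Sys.mem_bd_of (EdP.eq i))
    exact Subtype.ext (Prod.ext (Subtype.ext j)
      (Option.some.inj ((EdP.eq i).symm.trans ((congrArg π j).trans k))))

end job

variable {Lm : LM κ lam} {y : G75.YD κ lam} {S : Scene Lm} {t : TD y S} {R : ℕ} {c₁ : Cn S.L S.A}

theorem cmp_tr {X X' : Mf 4} {A A' A₀ : Type} [Fintype A] [Fintype A'] [Fintype A₀] {M : Mark X A κ}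
    {M' : Mark X' A' κ} (I : MId M M' A₀) {a b : A₀} (h : M.sys.Cmp (I.f a) (I.f b)) :
    M'.sys.Cmp (I.f' a) (I.f' b) := by
  refine disjoint_left.2 ?_
  rintro _ ⟨⟨y, s⟩, rfl⟩ ⟨⟨y', s'⟩, e⟩
  obtain ⟨y, rfl⟩ := (I.g a).surjective y
  obtain ⟨y', rfl⟩ := (I.g b).surjective y'
  have k := I.ψ.injOn (I.sub b ⟨(y', s'), rfl⟩) (I.sub a ⟨(y, s), rfl⟩)
    ((I.jj b (y', s')).trans (e.trans (I.jj a (y, s)).symm))
  exact disjoint_left.1 h ⟨_, rfl⟩ ⟨_, k⟩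

section t
variable (hy : y.OK) (ht : t.OK R c₁)
include hy ht

theorem walls : S.M.pin t.s ∧ (S.M.sys.w t.a).sd false ⊆ (S.M.sys.w t.h).sd false ∧
    S.M.sys.Cmp t.a t.s ∧ (S.M.sys.w t.s).band ⊆ (S.M.sys.w t.a).sd true ∧
    (S.M.sys.w t.a).band ⊆ (S.M.sys.w t.s).sd false := by
  have := S.M.con
  have := y.M.con
  have e0 : t.IH.f 0 = y.a := congrFun ht.hf0.1 0
  have e1 : t.IH.f 1 = y.h := congrFun ht.hf0.1 1
  have e2 : t.IH.f 2 = y.s := congrFun ht.hf0.1 2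
  have k1 : (y.M.sys.w y.s).band ⊆ (y.M.sys.w y.a).sd true := hy.hs.2.trans
    (subset_union_left.trans (Wall.nest (b := false) hy.ah.1.symm hy.rev.1 hy.ah.2))
  have k2 : (y.M.sys.w y.a).band ⊆ (y.M.sys.w y.s).sd false := hy.rev.1.trans
    (subset_union_left.trans (Wall.nest (b := true) hy.hs.1 hy.hs.2 hy.rev.2.1))
  have k3 : y.M.sys.Cmp y.a y.s := ((y.M.sys.w y.h).dj.mono hy.hs.2 hy.rev.1).symm
  have k4 := (Fex7.a_h hy ht).2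
  have k5 := (Fex7.a_h hy ht).1
  rw [← show t.IH.f' 0 = t.a from congrFun ht.hf0.2 0,
    ← show t.IH.f' 1 = t.h from congrFun ht.hf0.2 1] at k4 k5 ⊢
  rw [← show t.IH.f' 2 = t.s from congrFun ht.hf0.2 2]
  exact ⟨(t.IH.pin 2).2 (e2 ▸ hy.pin.2.2.1), subset_union_left.trans
    (Wall.nest (cmp_tr _ (by rw [e0, e1]; exact hy.ah.1)) k4 k5), cmp_tr _ (by rwa [e0, e2]),
    Fex7.band_sub _ (by rwa [e0, e2]), Fex7.band_sub _ (by rwa [e0, e2])⟩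

/-- **the left patch** -/
theorem pL {i : S.L} {W W₁ : World S.M} {Λ : Lns W (S.N t.i₀)} {Λ₁ : Lns W₁ (S.N i)}
    {B B₁ : Bas S.X univ} {b b₁ : LBas S.X univ} (hS : Std W B) (hΛ : LStd Λ b) (hS₁ : Std W₁ B₁)
    (hΛ₁ : LStd Λ₁ b₁) {u : ℝ} {τ : S.A → ℝ}
    (hB : ∀ x, (S.M.bn t.a).s x ≤ -1 / 2 → Co (atx (B.r 0) x) (atx (B₁.r u) x) ∧
      th S.X.I (t.wL i) x + b₁.b u x = b.b 0 x) {m c m₁ e : S.M.Cl} {π : Reg S.A}
    (h : Cb S.M.sys t.a t.s e.1 π) (hc : c.1 = cN S.M.sys t.a t.s e.1) (hn : ¬S.M.pin t.a)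
    (hp : ((0 : ℝ), tN S.M.sys t.a t.s τ) ∈ S.M.Br c.1)
    (ho : ((0 : ℝ), tN S.M.sys t.a t.s τ) ∈ S.M.O c.1) (hp₁ : (u, τ) ∈ S.M.Br e.1)
    (ho₁ : (u, τ) ∈ S.M.O e.1) (act : ∀ x, τ x ≠ 0 → x = t.a ∨ t.Sd false x ∨ t.Sd true x)
    {Y : Mf 3} [CompactSpace Y.M] {C : Cy Y κ lam} {Wi Wi' : Type} {N₁ N₂ : ND Y.M (lam ⊕ lam)}
    {t₁ : Wi → YW Y.I Y.M →₀ ℝ} {t₂ : Wi' → YW Y.I Y.M →₀ ℝ} {g : Y.M → (S.M.bn t.a).Y.M}
    {K : Nk C.yd (Λ.B m c) (Λ.G m c (0, tN S.M.sys t.a t.s τ))}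
    {K₁ : Nk C.yd (Λ₁.B m₁ e) (Λ₁.G m₁ e (u, τ))}
    (hK : IsNk (S := ⟨Y, C, N₁, t₁⟩) t.a (some false) g K)
    (hK₁ : IsNk (S := ⟨Y, C, N₂, t₂⟩) t.a (some false) g K₁) :
    ∃ φ U v, GEq (Λ₁.B m₁ e) (Λ₁.G m₁ e (u, τ)) (Λ.B m c) (Λ.G m c (0, tN S.M.sys t.a t.s τ)) φ U v ∧
      φ.source = W₁.un e {π} ∧ φ.target = W.un c {π} ∧ (C.yd.OK → Lt K₁ K true φ U v) := by
  classical
  have := S.M.con
  have s1 : (S.M.sys.w t.a).sd false ⊆ hf S.M t.h false :=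
    (walls hy ht).2.1.trans subset_union_left
  have s2 : ∀ x, x = t.a ∨ t.Sd false x → (S.M.sys.w x).band ⊆ hf S.M t.h false := by
    rintro x (rfl | k)
    exacts [(Fex7.a_h hy ht).1.trans subset_union_left, Subset.trans k s1]
  have s3 : ∀ x ∈ Sys.bd π, (S.M.sys.w x).band ⊆ hf S.M t.h false := fun x k =>
    s2 x (or_iff_not_imp_left.2 fun j => (h.bd k j).2)
  have pc : S.M.sys.Piece c.1 π := hc ▸ h.pcL
  suffices hA : ∀ x ∈ S.M.sys.U π, Ag (selfId S.M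
      (.subtype fun x => (S.M.sys.w x).band ⊆ hf S.M t.h false)) Λ Λ₁
      (0, tN S.M.sys t.a t.s τ) (u, τ) (t.wL i) x by
    obtain ⟨φ, U, v, k1, k2, k3, k4⟩ := patch m m₁ (ht.left i) hp ho hp₁ ho₁ pc
      h.pc (h.Ua.trans s1) (image_id _) (fun x k _ => ⟨⟨x, s3 x k⟩, rfl⟩)
      (fun x k _ => ⟨⟨x, s3 x k⟩, rfl⟩) (fun _ _ => rfl) hA
      (a₀ := ⟨t.a, s2 _ (.inl rfl)⟩) rfl rfl hn h.ae h.pa hK hK₁ fun _ _ => rfl
    exact ⟨_, _, _, Eqv71.geq_symm k1 (Λ.B_ok _ _) (Λ.G_ok _ ho) (Λ₁.B_ok _ _) (Λ₁.G_ok _ ho₁), k3,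
      k2, k4.symm⟩
  intro x hx
  have x0 : (S.M.bn t.a).s x < 0 := by simpa [pm] using (S.M.bn t.a).mem_sd.1 (h.Ua hx)
  by_cases x1 : -1 ≤ (S.M.bn t.a).s x
  · obtain ⟨z, hz⟩ := (S.M.bn t.a).exists_of_abs_s_lt (x := x) (abs_lt.2 ⟨by linarith, by linarith⟩)
    rw [← hz]
    exact ag_neck (ht.left i) (a := ⟨t.a, s2 _ (.inl rfl)⟩) (q := (z, _)) hp.1 hp₁.1
      (hp.2 (hc ▸ .inl rfl)) (hp₁.2 h.ae) (abs_le.2 ⟨x1, by linarith⟩) x0.ne (hz.symm ▸ s1 (h.Ua hx))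
  have off : ∀ z, t.Sd true z → x ∉ range (S.M.bn z).j := fun z k j =>
    (S.M.sys.w t.a).not_mem_sd (h.Ua hx) (k j)
  have r : RelAt (selfId S.M (.subtype fun x => (S.M.sys.w x).band ⊆ hf S.M t.h false))
      (tN S.M.sys t.a t.s τ) τ x := by
    refine ⟨hp.1, hp₁.1, trivial, fun z k j => ?_, fun z k j => ?_⟩
    · rcases h.tN_ne k with rfl | ⟨l, -⟩
      exacts [(off _ h.sa j).elim, ⟨⟨z, s2 z l⟩, rfl, (h.tN_l l).symm⟩]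
    · have l := (or_assoc.2 (act z k)).resolve_right fun l => off z l j
      exact ⟨⟨z, s2 z l⟩, rfl, fun n => k ((h.tN_l l).symm.trans n)⟩
  obtain ⟨b1, b2⟩ := hB x (by linarith [not_le.1 x1])
  exact ⟨r.co hS hS₁ (Mark.inf_eq hp ho ▸ disjoint_left.1 (pc.disjoint_cores c.2) hx) (co_id.2 b1),
    r.con hΛ hΛ₁ (ht.left i) (s1 (h.Ua hx)) ((congrArg _ (congrFun (Dr59.pm_id _) x)).trans b2)⟩

end t

variable (Lm) in
/-- the right patch -/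
def PrStmt : Prop := ∀ (y : G75.YD κ lam) (w : HW y) (S : Scene Lm) (t : TD y S) R c₁
  (W : World S.M) (Λ : Lns W (S.N t.i₀)) (B : Bas S.X univ) (b : LBas S.X univ) (m c : S.M.Cl)
  (τ : S.A → ℝ) (ρ : Reg S.A) N ty (g : (yY y).M → (S.M.bn t.a).Y.M)
  (K' : Nk (yD y) (Λ.B m c) (Λ.G m c (0, τ))), y.OK → w.OK → t.OK R c₁ → Std W B → LStd Λ b →
  (∀ x, 1 / 2 ≤ (y.M.bn y.a).s x → (y.M.bn y.s).s x ≤ -1 / 2 →
    Co (fun n => mf y.X.I S.X.I t.IH.ψ x (atx (w.B.r 0) x n)) (atx (B.r 0) (t.IH.ψ x)) ∧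
    th y.X.I t.wH x + Dr59.pm y.X.I S.X.I t.IH.ψ (b.b 0) x = w.b.b 0 x) →
  ((0 : ℝ), τ) ∈ S.M.Br c.1 → ((0 : ℝ), τ) ∈ S.M.O c.1 →
  (∀ x, τ x ≠ 0 → x = t.a ∨ x = t.s ∨ t.Sd false x) → S.M.sys.Piece c.1 ρ → ρ t.a = some true →
  ρ t.s = some false → (∀ x, x ≠ t.a → x ≠ t.s → ρ x = none) →
  (∀ q, t.IH.ψ ((y.M.bn y.a).j q) = (S.M.bn t.a).j (g q.1, q.2)) →
  IsNk (S := (⟨yY y, y.N.cy y.a, N, ty⟩ : Xs Empty κ lam)) t.a (some true) g K' →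
  ∃ φ U v, GEq (w.Λ.B w.m w.c) (w.Λ.G w.m w.c (0, w.c.1.indicator 1)) (Λ.B m c) (Λ.G m c (0, τ))
    φ U v ∧ φ.source = w.W.un w.c {w.ρ true} ∧ φ.target = W.un c {ρ} ∧ Lt (w.K true) K' false φ U v

/-- **MIX** -/
theorem mix_of (hR : PrStmt Lm) (hM : MxbStmt Lm) : MixStmt Lm := by
  intro y w S t R c₁ D i N Wi A' h _ _ _ r n J e b π ty g hy hw hd hS ht hJ hx hg hj act pin hπ πa
  have := S.M.con
  obtain ⟨w1, -, w3, w4, w5⟩ := walls hy ht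
  have H : Cb S.M.sys t.a t.s e.1 π := ⟨w3, w4, w5, e.2, hπ, πa⟩
  have hn : ¬S.M.pin t.a := (hS.fz _ ht.fz.1).1
  obtain ⟨B, β, hL, hH⟩ := hM y S t R c₁ i D.B (D.b i) w.B w.b (J.Θ b.s).1 hy ht
  obtain ⟨W₀, -, hW⟩ := Met55.exw Ms48.ms1 _ _ _ S.M D.W.toCaps B hS.sp
  obtain ⟨Λ₀, hΛ⟩ := Line51.exl _ _ _ _ S.M W₀ (S.N t.i₀) β (hS.spl _)
  have sW : Std W₀.nm B := ⟨hW.off, hW.band⟩
  have sΛ : LStd Λ₀.nm β := ⟨hΛ.off, hΛ.band⟩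
  have i1 := Mark.inf_eq b.br b.O
  have par := H.tN_par b.br.1 i1
  let c := S.M.cOf par
  have hc : c.1 = cN S.M.sys t.a t.s e.1 := H.tN_inf i1
  let p : Prm S.A := (0, tN S.M.sys t.a t.s (J.Θ b.s).2)
  have hp : p ∈ S.M.Br c.1 := Mark.mem_Br_cOf (p := p) par
  have ho : p ∈ S.M.O c.1 := Mark.mem_O_cOf (p := p) par
  obtain ⟨g', g1, g2⟩ := Fex7.iso_a hy ht
  obtain rfl : g' = g := Diffeomorph.ext fun z =>
    congrArg Prod.fst ((S.M.bn t.a).oe.inj ((g2 (z, 0)).symm.trans (hj (z, 0))))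
  have ok : (y.N.cy y.a).OK ∧ N.OK (yD y) := by have := hJ.xs t.a; rwa [hx] at this
  let T : XG1 Empty (S.N t.i₀) t.a := ⟨⟨yY y, y.N.cy y.a, N, Empty.elim⟩, g', ok, fun _ => g1 _⟩
  let G := (xg0 Empty (S.N t.i₀)).upd t.a T
  have hG : G.at t.a = T := XG.upd_self _ _ _
  let J' := jb0 Λ₀.nm G c p
  let b' : Bp J' c := ⟨Empty.elim, hp, ho⟩
  have cy : cylW c = {t.a} := by
    refine Subset.antisymm (fun x k => ?_) (singleton_subset_iff.2 ⟨hc ▸ .inl rfl, hn⟩)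
    rcases hc ▸ k.1 with j | j | j
    exacts [j, (k.2 (j ▸ w1)).elim, (k.2 (pin x j.1 j.2)).elim]
  have ac : t.a ∈ cylW c := cy.ge rfl
  have pcL : S.M.sys.Piece c.1 π := hc ▸ H.pcL
  have pcR : S.M.sys.Piece c.1 (rH t.a t.s) := hc ▸ H.pcR
  have sb : c0 S.M.sys t.a t.s e.1 ⊆ c.1 := hc ▸ H.c0_sub
  have ae : t.a ∈ cylW e := ⟨H.ae, hn⟩
  obtain ⟨K₁, n1, q1⟩ := cast_en hx hg (hJ.nk e t.a (some false) _ (Add46.act b (⟨_, ae⟩, false)))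
  have nk := fun o => cast_en (congrArg XG1.xs hG) (heq_g hG)
    ((jb0_ok Λ₀.nm G c p).nk c t.a (some o) _ (Add46.act b' (⟨_, ac⟩, o)))
  obtain ⟨K₂, n2, q2⟩ := nk false
  obtain ⟨K₃, n3, q3⟩ := nk true
  obtain ⟨φ, U, v, l1, l2, l3, l4⟩ := pL hy ht sW sΛ D.std (D.lstd i) hL H hc hn hp ho b.br b.O act
    n2 n1
  obtain ⟨φ', U', v', r1, r2, r3, r4⟩ := hR y w S t R c₁ _ _ B β c c _ (rH t.a t.s) N _ g' K₃ hy hw
    ht sW sΛ hH hp ho (fun x k => (H.tN_ne k).elim (.inr <| .inl ·) fun j => j.1.imp_right .inr)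
    pcR H.rH_a H.rH_s (fun _ => H.rH_o) hj n3
  let u1 := uqE ae πa fun x k j => by_contra fun l => k.2 (pin x k.1 (H.bd j l).2)
  let u2 := uqE ac πa fun x k _ => cy.le k
  let u3 := uqE ac H.rH_a fun x k _ => cy.le k
  obtain ⟨pL, fL, gL⟩ := exists_gl (e := (jBG b {π}).E) (e' := (jBG b' {π}).E) l1 l2 l3
    (l4 ok.1.yd) (q1 _) (q2 _)
  obtain ⟨pR, fR, gR⟩ := exists_gl (e := ((w.b1 true).bg N false).E)
    (e' := (jBG b' {rH t.a t.s}).E) r1 r2 r3 r4 rfl (q3 _)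
  refine ⟨⟨_, _, J', c, ⟨c0 S.M.sys t.a t.s e.1, (H.cell H.ce H.ae).mono H.c0_sub⟩, b',
    r0 t.a t.s π, fun o => bif o then rH t.a t.s else π, pL, pR, fL, fR⟩,
    ⟨W₀.nm_nrm, Λ₀.nm_nrm, jb0_ok _ _ _ _, fun _ k => k.1, ?_, H.pc0⟩, by convert H.U_r0 using 2; unfold TD.op; congr!, fun ρ => ⟨fun k => ?_, ?_⟩,
    fun o => ?_, cy, H.inn, gL, gR⟩
  · refine Set.ext fun x => ⟨fun k => ⟨sb k, k.elim (· ▸ w1) fun j => pin x j.1 j.2⟩, ?_⟩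
    rintro ⟨k1, k2⟩
    exact (hc ▸ k1 : x ∈ cN _ _ _ _).resolve_left fun j => hn (j ▸ k2)
  · exact (H.ins (hc ▸ k.1) k.2).elim (⟨false, ·⟩) (⟨true, ·⟩)
  · rintro ⟨_ | _, rfl⟩
    exacts [⟨pcL, H.UL⟩, ⟨pcR, H.UR⟩]
  · cases o
    exacts [πa, H.rH_a]

end Crest.Agent.X212.Klp2.Mx
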