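import Crest.Agent.X212.Sb84.Defs
import Crest.Agent.X212.Geo48.Main

/-!
# Row 212, SB GLU-2 (helper2): gluing the inner walls of a region, with weights
-/

set_option autoImplicit false
set_option linter.unusedSectionVars false
noncomputable section
open scoped Manifold ContDiff Topology InnerProductSpace
open MeasureTheory Function Filter Set

namespace Crest.Agent.X212.Klp2.Gw
open An M Cyl58 G75 Cht98 Sb84
open Abel74 (RedOn)
open Loc8 (Rd oz)
open Geo48 (dc)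

variable {κ lam : Type} [Fintype κ] [Fintype lam] [DecidableEq lam]

section world
variable {X : Mf 4} {A : Type} [Fintype A] {M : Mark X A κ} (C : Caps M) {c d : M.Cl} {a : A} {π : Reg A}

theorem fr_up (h : M.Up d c) (ha : a ∈ M.sys.fr c.1) : a ∈ M.sys.fr d.1 :=
  ⟨fun k => ha.1 (h.1 k), fun b k => ha.2 b (h.1 k)⟩

theorem hZ_up (h : M.Up d c) (ha : a ∈ M.sys.fr c.1) (z : (C.Z c).M) :
    hZ C d a (C.up d c z) = hZ C c a z := by
  rcases caps_surj C z with ⟨x, hx, rfl⟩ | ⟨a', h1, h2, b, rfl⟩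
  · rw [C.up_φ h hx, hZ_φ C (.inr (fr_up h ha)) (Mark.cores_mono h.1 hx), hZ_φ C (.inr ha) hx]
  · rw [C.up_β h h1 h2]
    have k : hZ C c a (C.β c a' b 0) = _ := (capsD C c).lift_cap _ _ ⟨(a', b), h1, h2⟩ (0 : V4)
    exact ((capsD C d).lift_cap _ _ ⟨(a', b), h.2 a' h1 h2, h2⟩ (0 : V4)).trans k.symm

theorem ar_up (h : M.Up d c) (ha : a ∈ M.sys.fr c.1) (t : ℝ) (z : (C.Z c).M) :
    ar C d t a (C.up d c z) = ar C c t a z := congrArg _ (hZ_up C h ha z)

/-- the part of a piece on the right of `x` is compact -/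
theorem cpt {x : A} (h : M.sys.Piece c.1 π) (hx : x ∈ M.sys.fr c.1)
    (bd : ∀ a ∈ Sys.bd π, M.pin a ∨ π a = some true ∧ Disjoint (hf M a false) (hf M x true)) :
    IsCompact (C.pc c π ∩ {z | -1 ≤ hZ C c x z}) := by
  have := M.con
  refine (isCompact_thick C one_pos).of_isClosed_subset ((isClopen_pc C h).1.inter
    (isClosed_le continuous_const (sm_hZ C (.inr hx)).continuous)) ?_
  rintro _ hz ⟨y, hy, rfl⟩
  obtain ⟨a, ha, ⟨y, s⟩, k, rfl⟩ := mem_iUnion₂.1 hy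
  obtain ⟨b, hb⟩ := exists_sg k.2.1
  have n := slab_sub ha.1 (fun k => k.1 rfl) ⟨_, k, rfl⟩
  have j := ((bd a (Sys.mem_bd_of (h.eq_some c.2 ha.1 ((φ_mem_pc C h n).1 hz.1) ((M.bn a).mem_half.2
    ⟨y, |s|, abs_pos.2 k.2.1, congrArg (fun t => (M.bn a).j (y, t)) hb.symm⟩)))).resolve_left ha.2).2
  have e := hz.2
  rw [mem_ofPred_eq, hZ_φ C (.inr hx) n] at e
  refine disjoint_left.1 j (.inr ⟨(y, s), rfl⟩) ?_
  by_cases k : 0 < pm true * (M.bn x).s ((M.bn a).j (y, s))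
  · exact .inl ((M.bn x).mem_sd.2 k)
  · exact .inr (((M.bn x).exists_of_abs_s_lt (by
      simp only [pm, if_true] at k
      exact abs_lt.2 ⟨by linarith, by linarith⟩)).elim fun y h => ⟨_, h⟩)

variable {x : Bool → A} {cs δ : ℝ} {p : Prm A} {w : Wd} {t : Bool → ℝ}
  (two : Two M x cs c p) (ht : ∀ e, p.2 (x e) = t e)
include two ht

theorem t_lt (e : Bool) : t e < 1 := ht e ▸ (two.par.1 _).2.lt_of_ne fun k =>
  (two.fr e).1 (two.inf ▸ k : x e ∈ c.1)

theorem ar_cont (e : Bool) : Continuous (ar C c (t e) (x e)) :=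
  (continuousOn_univ.1 ((contDiffOn_len (t e) false).continuousOn.mono fun _ _ =>
    .inl (t_lt two ht e))).comp (sm_hZ C (.inr (two.fr e))).continuous

theorem ar_mono (e : Bool) : StrictMono (len (t e) false) := fun _ _ =>
  strictMonoOn_len _ _ (.inl (t_lt two ht e)) (.inl (t_lt two ht e))

theorem lt_of_ar {e : Bool} {z : (C.Z c).M} (h : 0 < ar C c (t e) (x e) z) : -1 < hZ C c (x e) z :=
  (ar_mono two ht e).lt_iff_lt.1 ((len_pm _ false).trans_lt h)

variable (ok : w.OK t δ)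
include ok

theorem g_cont : Continuous (w.g C c t x) :=
  ((ok.sm true).continuous.comp (ar_cont C two ht true)).mul
    ((ok.sm false).continuous.comp (ar_cont C two ht false))

omit two ht in
theorem g_abs (z : (C.Z c).M) : |w.g C c t x z| ≤ 1 :=
  abs_le.2 ⟨neg_one_lt_zero.le.trans (mul_nonneg (ok.mem _ _).1 (ok.mem _ _).1),
    mul_le_one₀ (ok.mem _ _).2 (ok.mem _ _).1 (ok.mem _ _).2⟩

theorem g_off {z : (C.Z c).M} (h : ¬-1 ≤ hZ C c (x true) z) : w.g C c t x z = 0 :=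
  mul_eq_zero_of_left (ok.lo true _ ((not_lt.1 fun k => h (lt_of_ar C two ht k).le).trans
    (ok.s0 true).le)) _

omit ok in
theorem K_closed : IsClosed (w.K C c t x) :=
  isClosed_iUnion_of_finite fun e => isClosed_Icc.preimage (ar_cont C two ht e)

theorem K_sub : w.K C c t x ⊆ {z | -1 ≤ hZ C c (x true) z} := fun z hz => by
  obtain ⟨_ | _, k⟩ := mem_iUnion.1 hz
  · have k1 := lt_of_ar C two ht ((ok.s0 _).trans_le k.1)
    have k2 : hZ C c (x false) z < 1 := (ar_mono two ht false).lt_iff_lt.1 (k.2.trans_lt (ok.s1 false))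
    obtain ⟨y, l1, l2⟩ := exists_of_hZ C (.inr (two.fr false)) (z := z) (abs_lt.2 ⟨by linarith, by linarith⟩)
    have : 0 < pm true * (M.bn (x true)).s ((M.bn (x false)).j (y, hZ C c (x false) z)) :=
      (M.bn (x true)).mem_sd.1 (two.ord true ⟨(y, hZ C c (x false) z), rfl⟩)
    rw [← hZ_φ C (.inr (two.fr true)) l1] at this
    rw [mem_ofPred_eq, ← l2]
    simp only [pm, if_true, one_mul] at this
    exact neg_one_lt_zero.le.trans this.le
  · exact (lt_of_ar C two ht ((ok.s0 _).trans_le k.1)).le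

end world

variable {Lm : LM κ lam} {S : Scene Lm}

/-- **the world half of GLU-2** -/
theorem gl2w (hW : GlwStmt κ (lam ⊕ lam)) (D : S.Dat) (i : S.L) {m c : S.M.Cl} {p : Prm S.A} {π : Reg S.A}
    {x : Bool → S.A} {cs δ γ : ℝ} {w : Wd} {t : Bool → ℝ}
    {y : Cfg (D.W.Z c).M (Option κ) (lam ⊕ lam) 0} (two : Two S.M x cs c p) (ht : ∀ e, p.2 (x e) = t e)
    (ok : w.OK t δ) (inn : ∀ a ∈ c.1, a ∈ S.M.sys.inn π → ¬S.M.pin a ∧ a ∈ m.1)
    (pd : S.M.sys.Piece (dc c π).1 π)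
    (bd : ∀ a ∈ Sys.bd π, S.M.pin a ∨ π a = some true ∧ Disjoint (hf S.M a false) (hf S.M (x true) true))
    (ad : y.Adm ((D.Λ i).B m c) ((D.Λ i).G m c p))
    (mtc : ∀ a ∈ c.1, a ∈ S.M.sys.inn π → S.Mtc D i m c p a y) {U : Set (D.W.Z c).M}
    (hU : D.W.up (dc c π) c ⁻¹' D.W.pc (dc c π) π = U) (red : ∃ ξ, RedOn ((D.Λ i).G m c p).F y.m y.W U ξ)
    (int : IntegrableOn (fun z => ‖y.m.Fg ((D.Λ i).G m c p).F y.W z‖ ^ 2)
      (U ∩ {z | -1 ≤ hZ D.W.toCaps c (x true) z}) ((D.Λ i).G m c p).F.μ) (hγ : 0 < γ) :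
    ∃ p' y', Stg (D.Λ i) m x cs w t (S.M.sys.U π ∩ hf S.M (x true) true)
      (∫ z in U, w.g D.W.toCaps c t x z * y.m.kd ((D.Λ i).B m c) ((D.Λ i).G m c p).F y.W z
        ∂((D.Λ i).G m c p).F.μ + γ)
      (∫ z in U ∩ w.K D.W.toCaps c t x, ‖y.m.Fg ((D.Λ i).G m c p).F y.W z‖ ^ 2
        ∂((D.Λ i).G m c p).F.μ + γ) (dc c π) p' π y' := by
  subst hU
  obtain ⟨u, s⟩ := p
  obtain ⟨ξ, r⟩ := red
  have up := Geo48.up_dc (c := c) (π := π) fun a ha j j' => (inn a ha j').1 j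
  have hB := (D.Λ i).B_ok m c
  have hG := (D.Λ i).G_ok m (Geo48.mem_O two.par two.inf u)
  choose K β ζ b1 b2 b3 using fun a : ↥(c.1 ∩ S.M.sys.inn π) => mtc a a.2.1 a.2.2
  obtain ⟨g1, F, g2⟩ := Geo48.geo κ lam _ _ _ D.W (S.N i) (D.Λ i) D.B (D.b i) m c (dc c π) u s _ K D.nrm
    (D.lnrm i) D.std (D.lstd i) two.par two.inf inter_subset_left (Set.ext fun a => and_congr_right fun j =>
      not_congr (and_iff_right j).symm) (fun a ha => inn a ha.1 ha.2)
    fun a b => ⟨(b3 a b).1, (b3 a b).2.1, (b3 a b).2.2.1⟩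
  have fr := fun e => fr_up up (two.fr e)
  have cp := cpt D.W.toCaps pd (fr true) bd
  have cl := isClopen_pc D.W.toCaps pd
  have eP : D.W.up (dc c π) c ⁻¹' (D.W.pc (dc c π) π ∩ {z | -1 ≤ hZ D.W.toCaps (dc c π) (x true) z}) =
      D.W.up (dc c π) c ⁻¹' D.W.pc (dc c π) π ∩ {z | -1 ≤ hZ D.W.toCaps c (x true) z} :=
    Set.ext fun z => and_congr_right fun _ => by
      rw [mem_ofPred_eq, mem_ofPred_eq, hZ_up _ up (two.fr true)]
  have := S.M.con
  obtain ⟨x₀, -⟩ := pd.toIsReg.nonempty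
  have : Nonempty (D.W.Z c).M := ⟨D.W.φ c x₀⟩
  have := Fintype.ofFinite ↥(c.1 ∩ S.M.sys.inn π)
  obtain ⟨R, R0, H⟩ := hW _ (D.W.Z (dc c π)) _ _ _ _ _ ((D.Λ i).B m _) K _ _ y β ζ ξ _ _ γ F hB hG
    ((D.Λ i).B_ok m _) (fun a => ((S.N i).cy_ok a).yd) ad b1 b2 (fun a b => (b3 a b).2.2.2) cl.2 cp r
    (fun a b => g1 a b ▸ by
      rintro _ ⟨_, ⟨q, hq, rfl⟩, rfl⟩
      have j : _ ∉ S.M.sys.cores c.1 := fun j =>
        (hq.2.1.trans_eq (by rw [(j_mem_cores a.2.1).1 j, mul_zero])).false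
      rw [mem_preimage, D.W.up_φ up j]
      exact .inl ⟨_, a.2.2.2.1 ⟨q, rfl⟩, rfl⟩) (eP ▸ int) hγ
  obtain ⟨t', t1, t2, t3, K', l, g⟩ := g2 R R0
  obtain ⟨y', y1, ⟨ξ', y2⟩, y3⟩ := H _ K' l ((D.Λ i).G_ok m (Geo48.mem_O t1 t2 u)) g
  have e' : ∀ e, t' (x e) = s (x e) := fun e => t3 _ fun k => (two.fr e).1 k.1
  have tw : Two S.M x cs (dc c π) (u, t') :=
    ⟨t1, t2, fr, two.pin, fun e => (two.half e).trans_eq (e' e).symm, two.yc, two.qhs, two.ord⟩
  have ht' := fun e => (e' e).trans (ht e)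
  have oO := (S.M.sys.isOpen_U π).inter (((S.M.sys.w (x true)).op_sd true).union (S.M.sys.w (x true)).op_band)
  have mU := (cl.2.preimage F.oe.contMDiff.continuous).measurableSet
  refine ⟨(u, t'), y', tw, ht', pd, rfl, y1, Brk99.rd_patch (J := Unit) (U := fun _ => _) (f := fun _ => ξ')
    (fun _ => cl.2) (fun _ => y2.toRedOn) (fun _ _ _ _ _ => rfl) isOpen_interior
    fun z hz => ⟨(), Loc8.oz_sub _ pd oO inter_subset_left hz⟩, ?_, ?_⟩
  · have k := (abs_le.1 (y3 _ (g_cont _ tw ht' ok).measurable (g_abs _ ok)).2).2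
    rw [eP, ← setIntegral_eq_of_subset_of_forall_sdiff_eq_zero cl.2.measurableSet inter_subset_left
      (fun z hz => by rw [g_off _ tw ht' ok fun j => hz.2 ⟨hz.1, j⟩, zero_mul]),
      ← setIntegral_eq_of_subset_of_forall_sdiff_eq_zero mU inter_subset_left
      (fun z hz => by rw [g_off _ tw ht' ok fun j => hz.2 ⟨hz.1, j.trans_eq (hZ_up _ up (two.fr true) z)⟩,
        zero_mul])] at k
    simp only [Sb84.Wd.g, ar_up _ up (two.fr _)] at k ⊢
    linarith
  · have mK := (K_closed (w := w) D.W.toCaps tw ht').measurableSet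
    have k := (abs_le.1 (y3 ((w.K D.W.toCaps _ t x).indicator 1) (measurable_one.indicator mK) fun z => by
      by_cases j : z ∈ w.K D.W.toCaps _ t x <;> simp [j]).1).2
    have eK : D.W.up (dc c π) c ⁻¹' w.K D.W.toCaps (dc c π) t x = w.K D.W.toCaps c t x := by
      simp only [Wd.K, preimage_iUnion, preimage_preimage, ar_up _ up (two.fr _)]
    have ind : ∀ {α : Type} (s : Set α) (f : α → ℝ), (fun z => s.indicator 1 z * f z) = s.indicator f :=
      fun s f => funext fun z => by by_cases j : z ∈ s <;> simp [j]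
    have eI : ∀ z, (w.K D.W.toCaps (dc c π) t x).indicator (1 : (D.W.Z (dc c π)).M → ℝ) (D.W.up (dc c π) c z) =
        (w.K D.W.toCaps c t x).indicator 1 z := fun z => by rw [← eK]; rfl
    simp only [eI] at k
    rw [ind, ind, eP, setIntegral_indicator mK, setIntegral_indicator (K_closed _ two ht).measurableSet,
      inter_assoc, inter_assoc, inter_eq_right.2 (K_sub _ tw ht' ok), inter_eq_right.2 (K_sub _ two ht ok)] at k
    linarith

end Crest.Agent.X212.Klp2.Gw
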