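import Crest.Agent.X212.Klp2.Cls
import Crest.Agent.X212.Sb84.Defs

/-!
# Row 212, SB-CLS (helper2): the leaf
-/

set_option autoImplicit false

namespace Crest.Agent.X212.Klp2

/-- **LEAF CLS** -/
theorem clsStmt (κ lam : Type) [Fintype κ] [Fintype lam] : Sb84.ClsStmt κ lam :=
  fun _ _ _ _ _ _ _ _ _ _ _ _ _ _ _ _ F hB hG _ hD hx hβ dj => Cls.cls F hB hG hD hx hβ dj

end Crest.Agent.X212.Klp2
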