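import Crest.Agent.X212.Nd18.Fj
import Crest.Agent.X212.Mon62.PM
import Crest.Agent.X212.Num57.Ixc

/-! Row 212, FACT: models of the parts of faces on which the wall with neck terms is broken. -/

set_option autoImplicit false
set_option linter.unusedSectionVars false
noncomputable section
open scoped Manifold ContDiff Topology InnerProductSpace
open MeasureTheory Set Function Filter

namespace Crest.Agent.X212.Klp2
open An M Nd18 Mod61 Nk89 Cht98 Rf65 Pte3 Fk18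

variable {Wi : Type} {X : Mf 4} {A κ lam : Type} [Fintype A] [Fintype κ] [Fintype lam]
  [DecidableEq lam] {M : Mark X A κ} {W : World M} {N : ML M lam} {Λ : Lns W N}
  {A' h : Type} [Fintype A'] [DecidableEq A'] [Fintype h] {r n : ℕ}
  {J : Job Wi Λ A' h r n} {c : M.Cl} {a : A}

/-- fixed limits -/
theorem stb_empty {p : Prt A A' h} {δ : ℝ} {b : Bp J c} (E : EC b p Empty δ) (t₀ : Tq p Empty) :
    Stb E t₀ := fun i _ s ζ k t => by
  have e : E.lm i t₀ = E.lm i t := congrArg (fun u => (E.μ i).elim 0 u) (Subsingleton.elim _ _)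
  have f : ∀ u u' : ℝ, u = u' → Mod61.EqOn (J.xs i.1).D.B (J.xs i.1).D.Z univ
      (cy (Rdc90.bh (E.β i) (u • E.η i) 0)) (cy (Rdc90.bh (E.β i) (u • E.η i) 0)) s ζ →
      Mod61.EqOn (J.xs i.1).D.B (J.xs i.1).D.Z univ
      (cy (Rdc90.bh (E.β i) (u' • E.η i) 0)) (cy (Rdc90.bh (E.β i) (u' • E.η i) 0)) s ζ :=
    fun _ _ e => e ▸ id
  exact f _ _ e k

/-- **A-PM** -/
theorem pmA (hF : FrA J c a) (hE : ExA J c a) (hT : TlA J c a) (hM : MdA J c a) : PmA J c a :=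
  fun H => by
  obtain ⟨δ₁, d1, sm⟩ := Mon62.smM (c := c) H.ok
  filter_upwards [hF H, hE H, hT H, Ioc_mem_nhdsGT d1] with δ k1 k2 k3 k4
  refine (k1.and (k2.and k3)).mono fun Adm ⟨e1, e2, e3⟩ σ p G Sl hS => ?_
  have s : ∀ {b : Bp J c} {E : EC b p Empty δ}, GA a σ δ b δ E → SmC E := fun g =>
    let ⟨q, y, x, ψ, u, v⟩ := g.one
    sm δ k4.2 σ p _ _ _ q y x ψ G g.ov g.ok g.b0 u v
  have ix : ∀ {b : Bp J c} {E : EC b p Empty δ}, GA a σ δ b δ E → IxC E fun _ => True := fun g =>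
    Rz57.ixC G g.ok g.ov (s g) (e1 σ p G _ _ g).frC
  obtain ⟨D, O, dn⟩ := hM σ p δ Sl Adm ⟨G, fun q y u v => ⟨(hS q y u v).1.toSolOn, (hS q y u v).1.fre⟩,
    fun b δ' E g => by
      obtain rfl := g.eq
      exact ⟨g.ok, g.ov, s g, (ix g).imp fun _ k q x _ => k q x trivial⟩,
    fun q y u v => e2 σ p G q y u (hS q y u v).1,
    fun b δ' E g q₀ u α 𝒰 q y y₀ x₀ ψ₀ v w z => e3 σ p G b δ' E g q₀ u α 𝒰 q y y₀ x₀ ψ₀ v
      (w.mono fun _ k => ⟨k.1, (hS _ _ k.1 k.2).1⟩) (hS _ _ u z).1,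
    fun b δ' E g _ _ t _ _ _ => by
      obtain rfl := g.eq
      exact stb_empty E t⟩
  refine ⟨D, ⟨fun i => O.ax i Adm fun _ => id, fun i q y x u v R => ?_, fun q y u v => ?_, O.near,
    fun _ _ _ _ _ => trivial⟩, fun q y u v ⟨i, x, R, k⟩ => ?_⟩
  · obtain ⟨_, _, _, _, _, -, -, -, e⟩ := O.sol i y x R
    exact (e q u v).1
  · obtain ⟨i, x, R, e⟩ := dn q y u v (hS q y u v).2
    exact ⟨i, x, R, .inr e⟩
  · obtain ⟨b, δ', E, x', ψ, g, R', m, e⟩ := O.sol i y x R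
    obtain rfl := g.eq
    obtain ⟨d, hd⟩ := ix g
    exact ⟨d, b, E, x', ψ, ⟨g, s g, e1 σ p G _ _ g, R', m, hd q x' trivial⟩, (e q u v).2.2.1 k⟩

end Crest.Agent.X212.Klp2
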