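import Crest.Agent.X212.Pte3.Dec
import Crest.Agent.X212.Rf65.Pl

/-!
# Row 212, LIXP (helper2): decay at the walls of positive scalar curvature only
-/

set_option autoImplicit false
set_option linter.unusedSectionVars false
noncomputable section
open scoped Manifold ContDiff Topology InnerProductSpace
open MeasureTheory Set Function Filter

namespace Crest.Agent.X212.Klp2
open An M G75 Nd18 Rdc90 Nk89 Cht98 Rf65 Ins26
open An.Job (conn_xs Sol)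
open Tl47 (DR)
open Sw88

section job
variable {Wi : Type} {X : Mf 4} {A κ lam : Type} [Fintype A] [Fintype κ] [Fintype lam]
  [DecidableEq lam] {M : Mark X A κ} {W : World M} {N : ML M lam} {Λ : Lns W N}
  {A' h : Type} [Fintype A'] [DecidableEq A'] [Fintype h] {r n : ℕ}
  {J : Job Wi Λ A' h r n}

/-- far out on an end the equations of the neck hold -/
theorem eqS (hJ : J.OK) {c : M.Cl} {σ : Cel A'} (hσ : σ ∈ J.𝒦) {q : Wi →₀ ℝ} {y : J.Obc c} (S : Sol σ q y)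
    {i : Ed c} (ha : Act J.m c i.1 (some i.2) (J.Θ y.s)) : ∃ T ∈ dr i.2, T ⊆ (J.K c i.1 _ _ ha).J ∧
    Elr.EqN (J.xs i.1).N n (J.K c i.1 _ _ ha) y.x ((J.xs i.1).q q) T := by
  have h1 : (J.Θ y.s).2 i.1 = 1 := S.inf.ge ha.2.2.2
  obtain ⟨a', e1, e2⟩ := hJ.inf σ hσ _ (J.cl_dom S.cell) _ h1
  obtain ⟨s₀, k1, k2⟩ := hJ.lin
  obtain ⟨d, hd⟩ := Nfo63.loc (l := pure ()) (s := fun _ => y.s) hJ hσ
    (fun _ => ⟨S.cell, S.inf⟩) tendsto_const_nhds S.cell h1 (fun _ => ha) (Pat85.dj hJ)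
    (fun _ => (k2 a' _ e1 _ (e2 ▸ k1.le)).2 ha.1) (q := fun _ => q) (T := q.support)
    fun _ hw _ => Finsupp.notMem_support_iff.1 hw
  have d0 : 0 < max d 1 := by positivity
  refine ⟨Dp _ _ (max d 1), ?_, Dp_sub d0, fun z hz => ?_⟩
  · rw [(hJ.nk _ _ _ _ ha).lo, (hJ.nk _ _ _ _ ha).hi]
    cases i.2
    · exact mem_of_superset (Ici_mem_atTop (max d 1)) fun s hs => by simpa [Dp] using hs
    · exact mem_of_superset (Iic_mem_atBot (-max d 1)) fun s hs => by simpa [Dp] using hs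
  obtain ⟨b1, b2⟩ := eventually_pure.1 hd y.x z (Dp_mono (le_max_left d 1) hz)
  exact ⟨(congrArg (_ - ·) b1).symm.trans (S.sol.D z), (congrArg (_ - ·) b2).symm.trans (S.sol.C z)⟩

/-- **local DEC**: one rate for the ends at the walls of `L` -/
theorem decO (hJ : J.OK) {L : Set A} (hL : ∀ a ∈ L, Nl J a ∧ ∃ b, PY (J.xs a).D b) :
    ∃ δ₁ > 0, ∀ δ ≤ δ₁, ∀ (c : M.Cl), ∀ σ ∈ J.𝒦, ∀ q (y : J.Obc c) P, Sol σ q y →
      (∀ i ∈ EdP c P, i.1.1 ∈ L) → Go δ y P ∧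
        ∀ i ∈ EdP c P, ∀ ha : Act J.m c i.1 (some i.2) (J.Θ y.s), ∃ d > δ,
          (J.K c i.1 _ _ ha).ELim d y.x (y.β i.1 i.2) (y.ζ i.1 i.2) (dr i.2) := by
  have cn := conn_xs J
  obtain ⟨d, h0, hd⟩ : ∃ d, (∀ a : L, ∀ β, Bs (J.xs a).D β → DR (J.xs a).D β d) ∧ 0 < d :=
    ((eventually_all.2 fun a : L =>
      let ⟨_, k⟩ := (hL a a.2).2
      let ⟨_, k1, k2⟩ := Tl47.deceU k
      mem_of_superset (Ioc_mem_nhdsGT k1) fun _ h β b => (k2 β b).mono h.2).and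
      self_mem_nhdsWithin).exists
  refine ⟨d / 2, half_pos hd, fun δ h c σ hσ q y P S hP => ?_⟩
  have bs : ∀ i ∈ EdP c P, Bs (J.xs i.1).D (y.β i.1 i.2) := fun i hi =>
    let ⟨_, k⟩ := (hL _ (hP i hi)).2
    Elr.bs (hJ.xs _).1.yd (J.xs i.1).Y.dim (hL _ (hP i hi)).1.1 k (S.crit _ i.1.2 _)
  have el : ∀ i ∈ EdP c P, ∀ ha : Act J.m c i.1 (some i.2) (J.Θ y.s),
      (J.K c i.1 _ _ ha).ELim d y.x (y.β i.1 i.2) (y.ζ i.1 i.2) (dr i.2) := fun i hi ha => by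
    obtain ⟨T, t1, t2, t3⟩ := eqS hJ hσ S ha
    have nl := (hL _ (hP i hi)).1
    rw [show (J.xs i.1).q q = 0 by simp [Xs.q, nl.2]] at t3
    exact Elr.elP nl.1 (bs i hi) hd (h0 ⟨_, hP i hi⟩ _ (bs i hi)) S.sol.toAdm (Dea.dr_or _) t1 t2 t3
      (S.lim _ _ ha)
  have l : δ < d := h.trans_lt (half_lt_self hd)
  refine ⟨⟨hJ.memBr hσ S.ov, hJ.memO hσ S.ov,
    let k := S.sol.toAdm.con; ⟨k.ok, k.conn, k.sm, k.pos⟩, bs, fun i hi ha => ?_, S.int.integrableOn⟩,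
    fun i hi ha => ⟨d, l, el i hi ha⟩⟩
  obtain ⟨u, T, h1, h2, h3, h4⟩ := el i hi ha
  exact ⟨d, l, u, T, h1, h2, Pte3.cls_con h3 (bs i hi).zr, fun k => (h4 k).imp fun C hC s hs =>
    Pte3.cls_con (hC s hs) (bs i hi).zr⟩

end job

variable {κ lam : Type} [Fintype κ] [Fintype lam] [DecidableEq lam] {Lm : LM κ lam}
  {S : Scene Lm} {D : S.Dat} {i : S.L} {Wi : Type} {r n : ℕ}
  {J : Job Wi (D.Λ i) (S.A ⊕ Unit) S.ls r n} {X : Finset S.A} {a₀ : Option S.A} {j : ℕ} {n₀ : ℤ} {T : ℝ}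

/-- **local DEC inside the lens walls** -/
theorem decL (G : GX J X a₀ j n₀ T) (py : ∀ l ∈ S.ls, PY (J.xs l).D 0) : ∃ δ₁ > 0, ∀ δ ≤ δ₁,
    ∀ (c : S.M.Cl), ∀ σ ∈ J.𝒦, ∀ q (y : J.Obc c) (l : S.ls), Sol σ q y → l.1 ∈ c.1 →
      Go δ y {hp l.1 false} :=
  let ⟨δ₁, h0, h⟩ := decO G.ok (L := ↑S.ls) fun l hl =>
    ⟨G.nil l fun k => (G.sc.fz _ (G.fz _ k)).2.1 hl, 0, py l hl⟩
  ⟨δ₁, h0, fun δ k c σ hσ q y l hy _ => (h δ k c σ hσ q y _ hy fun i ⟨_, (e : _ = _), f⟩ => by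
    subst e
    by_contra u
    have : i.1.1 ≠ l.1 := fun e => u (e ▸ l.2)
    simp [hp, this] at f).1⟩

end Crest.Agent.X212.Klp2
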