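import Crest.Agent.X212.G75.Std
import Crest.Agent.X212.An.Str
import Crest.Agent.X212.Eqv71.Nat
import Crest.Agent.X212.Nd18.Ind

/-!
# Row 212, HD-MIX (helper2): patches between pieces of two worlds
-/

set_option autoImplicit false
set_option linter.unusedSectionVars false
noncomputable section
open Set Function Filter Topology
open scoped ContDiff Manifold

namespace Crest.Agent.X212.Klp2.Mx
open An M Cyf70 G75 Nd18 Cyl58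
open Dr59 (mf)
open Met55 (atx Co rotU)
open Line51 (Ln th)

variable {X X' : Mf 4} {A A' A₀ κ lam : Type} [Fintype A] [Fintype A'] [Fintype A₀] [Fintype κ]
  [Fintype lam] [DecidableEq lam] {M : Mark X A κ} {M' : Mark X' A' κ} {I : MId M M' A₀}
  {W : World M} {W' : World M'} {N : ML M lam} {N' : ML M' lam} {Λ : Lns W N} {Λ' : Lns W' N'}
  {p : Prm A} {p' : Prm A'} {V : Set X.M} {w : X.M → Matrix lam lam ℂ}

variable (I Λ Λ' p p' w) in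
/-- the metrics and the connections agree at `x` -/
def Ag (x : X.M) : Prop :=
  Co (fun i => mf X.I X'.I I.ψ x (W.k p x i)) (W'.k p' (I.ψ x)) ∧
    th X.I w x + Dr59.pm X.I X'.I I.ψ (Λ'.a0 p') x = Λ.a0 p x

/-- agreement on matched model necks -/
theorem ag_neck (hL : LId N N' I V w) {a : A₀} {q : (M.bn (I.f a)).Y.M × ℝ} (h : p.2 ∈ M.sys.Par)
    (h' : p'.2 ∈ M'.sys.Par) (e : p.2 (I.f a) = 1) (e' : p'.2 (I.f' a) = 1) (h1 : |q.2| ≤ 1)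
    (h0 : q.2 ≠ 0) (hq : (M.bn (I.f a)).j q ∈ V) : Ag I Λ Λ' p p' w ((M.bn (I.f a)).j q) := by
  have t : (1 / 2 : ℝ) ≤ 1 := by norm_num
  constructor
  · have k := (W.neck _ p h (e ▸ t) q h1 (.inr h0)).symm.map (Met55.dmp X.I X'.I I.ψ ((M.bn (I.f a)).j q))
    have k' := W'.neck _ p' h' (e' ▸ t) (I.g a q.1, q.2) h1 (.inr h0)
    rw [I.jj]
    rw [e] at k
    rw [e'] at k'
    exact (k.trans (co_of_eq fun i => X212.M.mf_nf _ i)).trans k'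
  · refine band_inj _ (a := th X.I w + Dr59.pm X.I X'.I I.ψ (Λ'.a0 p')) ?_
    have k := (Λ.neck _ p h (e ▸ t)).par q h1
    have k' := (Λ'.neck _ p' h' (e' ▸ t)).par (I.g a q.1, q.2) h1
    rw [Dr59.pm_add, Pi.add_apply, pm_gam, Dr59.pm_congr_right
      (f := fun q : (M.bn (I.f a)).Y.M × ℝ => (I.g a q.1, q.2)) (b := N'.nA (I.f' a))
      (a := Dr59.pm (IC (M'.bn (I.f' a)).Y.I) X'.I (M'.bn (I.f' a)).j (Λ'.a0 p')) (y := q) k'.symm,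
      nA_gam hL (h1.trans_lt (by norm_num)) hq]
    exact k

variable {m c : M.Cl} {m' c' : M'.Cl}

variable (m m') in
/-- the text of `M.geq_pc` with pointwise agreement -/
theorem geq_ag (hL : LId N N' I V w) (hp : p ∈ M.Br c.1) (ho : p ∈ M.O c.1) (hp' : p' ∈ M'.Br c'.1)
    (ho' : p' ∈ M'.O c'.1) {π : Reg A} {π' : Reg A'} (hπ : M.sys.Piece c.1 π)
    (hπ' : M'.sys.Piece c'.1 π') (h1 : M.sys.U π ⊆ V) (h2 : I.ψ '' M.sys.U π = M'.sys.U π')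
    (hb : ∀ a ∈ Sys.bd π, M.pin a → a ∈ range I.f) (hb' : ∀ a ∈ Sys.bd π', M'.pin a → a ∈ range I.f')
    (h3 : ∀ a, M.pin (I.f a) → π' (I.f' a) = π (I.f a))
    (hA : ∀ x ∈ M.sys.U π, Ag I Λ Λ' p p' w x) :
    ∃ (Ψ : PartialDiffeomorph (W.Z c).I (W'.Z c').I (W.Z c).M (W'.Z c').M ∞)
      (u : (W.Z c).M → Matrix lam lam ℂ), Ψ.source = W.pc c π ∧ Ψ.target = W'.pc c' π' ∧
      (∀ x ∈ M.sys.U π, Ψ (W.φ c x) = W'.φ c' (I.ψ x)) ∧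
      (∀ x ∉ M.sys.cores c.1, u (W.φ c x) = tw m c m' c' I.ψ Λ Λ' w x) ∧
      GEq (Λ.B m c) (Λ.G m c p) (Λ'.B m' c') (Λ'.G m' c' p') Ψ.toOpenPartialHomeomorph
        (rotU (W.F m c p).toPre (W'.F m' c' p').toPre Ψ) fun z => Line51.rl (u z) := by
  have := M.con
  have := M'.con
  have hV := M.sys.isOpen_U π
  have hU := (hπ.disjoint_cores c.2).subset_compl_right
  have hU' : ∀ x ∈ M.sys.U π, I.ψ x ∉ M'.sys.cores c'.1 := fun x hx =>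
    (hπ'.disjoint_cores c'.2).subset_compl_right (h2 ▸ mem_image_of_mem _ hx)
  have hJ : ∀ p ∈ {p : A₀ × Bool | M.pin (I.f p.1) ∧ π (I.f p.1) = some p.2},
      Thin M c (M.sys.U π) (I.f p.1, p.2) ∧ I.f' p.1 ∈ c'.1 := fun p hp =>
    ⟨.of_half (hπ.bd_subset (Sys.mem_bd_of hp.2)) hp.1 (hπ.adj _ _ hp.2),
      hπ'.bd_subset (Sys.mem_bd_of ((h3 _ hp.1).trans hp.2))⟩
  obtain ⟨Ψ, k1, k2, k3, -, k5⟩ := tr W.toCaps W'.toCaps I hV (h1.trans hL.sub) hU hU' hJ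
  obtain ⟨u, u1, u2⟩ := exists_tw m Λ m' Λ' hL h1 hU hU' hJ
  have g := geq_of Λ Λ' hp ho hp' ho' hV hU hU'
    (fun x hx => (Orx52.ldp _ (hL.sub (h1 hx))).contMDiffAt) (k1 ▸ subset_union_left)
    (k1 ▸ cext_subset_closure _ (by rintro _ ⟨p, hp, rfl⟩; exact (hJ p hp).1)) k3 k5
    (fun x hx => (hA x hx).1) ⟨hL.uni.mono h1, fun x hx => (hA x hx).2⟩
    (fun x hx => u2 x (hU hx)) (k1 ▸ u1)
  rw [h2] at k2
  refine ⟨Ψ, u, k1.trans (congrArg (W.φ c '' M.sys.U π ∪ ·) (Set.ext fun z => ⟨?_, ?_⟩)),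
    k2.trans (congrArg (W'.φ c' '' M'.sys.U π' ∪ ·) (Set.ext fun z => ⟨?_, ?_⟩)), k3, u2, g⟩
  · rintro ⟨_, ⟨p, hp, rfl⟩, e⟩; exact ⟨_, _, hp.1, hp.2, e⟩
  · rintro ⟨a, b, k4, k5, e⟩
    obtain ⟨a, rfl⟩ := hb a (Sys.mem_bd_of k5) k4
    exact ⟨_, ⟨(a, b), ⟨k4, k5⟩, rfl⟩, e⟩
  · rintro ⟨_, ⟨p, hp, rfl⟩, e⟩; exact ⟨_, _, (I.pin _).2 hp.1, (h3 _ hp.1).trans hp.2, e⟩
  · rintro ⟨a, b, k4, k5, e⟩
    obtain ⟨a, rfl⟩ := hb' a (Sys.mem_bd_of k5) k4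
    exact ⟨_, ⟨(a, b), ⟨(I.pin _).1 k4, (h3 _ ((I.pin _).1 k4)).symm.trans k5⟩, rfl⟩, e⟩

theorem mem_Jv {b : Bool} {t : ℝ} (h : 0 < (bif !b then 1 else -1) * t) :
    t ∈ Jv (Cht98.np 1 b) (Cht98.nq 1 b) := by
  cases b <;> simpa [Cht98.np, Cht98.nq, Jv] using h

theorem li_ok {b : Bool} {t : ℝ} (h : 0 < (bif !b then 1 else -1) * t) :
    |Cht98.li 1 b t| < 1 ∧ 0 < pm b * Cht98.li 1 b t := by
  obtain ⟨h1, h2⟩ := Cht98.li_mem le_rfl (mem_Jv h)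
  replace h2 := h2.resolve_left (lt_irrefl _)
  exact ⟨abs_lt.2 h1, by cases b <;> simpa [pm] using h2⟩

theorem nk_at {Wi : Type} {a : A} {b : Bool} {S : Xs Wi κ lam} {g : S.Y.M → (M.bn a).Y.M}
    {K : Nk S.D (Λ.B m c) (Λ.G m c p)} (h : IsNk a (some b) g K) (e : p.2 a = 1) {z : S.Y.M × ℝ}
    (hz : 0 < (bif !b then 1 else -1) * z.2) :
    z ∈ K.ψ.source ∧ K.ψ z = W.nj c a (g z.1, Cht98.li 1 b z.2) := by
  have e' : K.J = Jv (Cht98.np 1 b) (Cht98.nq 1 b) := by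
    rw [Nk.J, h.lo, h.hi]
    cases b <;> simp [Cht98.np, Cht98.nq]
  obtain ⟨h1, h2⟩ := Cht98.li_mem le_rfl (mem_Jv hz)
  replace h2 := h2.resolve_left (lt_irrefl _)
  have := h.ψ z.1 (Cht98.li 1 b z.2) (by cases b; exacts [h1.1, h2]) (by cases b; exacts [h2, h1.2])
  rw [e, Option.getD_some, Cht98.len_li le_rfl (mem_Jv hz)] at this
  exact ⟨K.mem_src.2 (e' ▸ mem_Jv hz), this⟩

/-- two necks are literally matched by `(φ, U, v)` -/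
def Lt {Z Z' : Mf 4} {lam : Type} [Fintype lam] {Y : Mf 3} [CompactSpace Y.M]
    {D : YD Y.I Y.M κ lam} {B : Base Z.M (Option κ) lam} {G : Geo Z.I Z.M (Option κ) lam}
    {B' : Base Z'.M (Option κ) lam} {G' : Geo Z'.I Z'.M (Option κ) lam} (K : Nk D B G)
    (K' : Nk D B' G') (o : Bool) (φ : OpenPartialHomeomorph Z.M Z'.M)
    (U : Z.M → Option κ → Option κ → ℝ) (v : Z.M → CL (Eu lam) (Eu lam)) : Prop :=
  ∀ z : Y.M × ℝ, 0 < (bif o then 1 else -1) * z.2 → K.ψ z ∈ φ.source ∧ φ (K.ψ z) = K'.ψ z ∧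
    U (K.ψ z) = (fun i j => D.B.P i j z) ∧ v (K.ψ z) = D.B.l z

variable (m m') in
/-- **patches** -/
theorem patch (hL : LId N N' I V w) (hp : p ∈ M.Br c.1) (ho : p ∈ M.O c.1) (hp' : p' ∈ M'.Br c'.1)
    (ho' : p' ∈ M'.O c'.1) {π : Reg A} {π' : Reg A'} (hπ : M.sys.Piece c.1 π)
    (hπ' : M'.sys.Piece c'.1 π') (h1 : M.sys.U π ⊆ V) (h2 : I.ψ '' M.sys.U π = M'.sys.U π')
    (hb : ∀ a ∈ Sys.bd π, M.pin a → a ∈ range I.f) (hb' : ∀ a ∈ Sys.bd π', M'.pin a → a ∈ range I.f')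
    (h3 : ∀ a, M.pin (I.f a) → π' (I.f' a) = π (I.f a))
    (hA : ∀ x ∈ M.sys.U π, Ag I Λ Λ' p p' w x) {a₀ : A₀} {a : A} {a' : A'} (e : I.f a₀ = a)
    (e' : I.f' a₀ = a') (hn : ¬M.pin a) (hc' : a' ∈ c'.1) {b : Bool} (hπa : π a = some b)
    {Y : Mf 3} [CompactSpace Y.M] {C : Cy Y κ lam} {Wi Wi' : Type} {N₁ N₂ : ND Y.M (lam ⊕ lam)}
    {t₁ : Wi → YW Y.I Y.M →₀ ℝ} {t₂ : Wi' → YW Y.I Y.M →₀ ℝ} {g : Y.M → (M.bn a).Y.M}
    {g' : Y.M → (M'.bn a').Y.M} {K : Nk C.yd (Λ.B m c) (Λ.G m c p)}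
    {K' : Nk C.yd (Λ'.B m' c') (Λ'.G m' c' p')} (hK : IsNk (S := ⟨Y, C, N₁, t₁⟩) a (some b) g K)
    (hK' : IsNk (S := ⟨Y, C, N₂, t₂⟩) a' (some b) g' K')
    (hj : ∀ y s, I.ψ ((M.bn a).j (g y, s)) = (M'.bn a').j (g' y, s)) :
    ∃ φ U v, GEq (Λ.B m c) (Λ.G m c p) (Λ'.B m' c') (Λ'.G m' c' p') φ U v ∧
      φ.source = W.un c {π} ∧ φ.target = W'.un c' {π'} ∧ Lt K K' (!b) φ U v := by
  subst e e'
  obtain ⟨Ψ, u, k1, k2, k3, k4, k5⟩ := geq_ag m m' hL hp ho hp' ho' hπ hπ' h1 h2 hb hb' h3 hA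
  refine ⟨_, _, _, k5, k1.trans (un_one _ _ _).symm, k2.trans (un_one _ _ _).symm, fun z hz => ?_⟩
  have hc := hπ.bd_subset (Sys.mem_bd_of hπa)
  obtain ⟨l1, l2⟩ := li_ok hz
  obtain ⟨s1, s2⟩ := nk_at hK (hp.2 hc) hz
  obtain ⟨-, s3⟩ := nk_at hK' (hp'.2 hc') hz
  have n0 : Cht98.li 1 b z.2 ≠ 0 := right_ne_zero_of_mul l2.ne'
  have hq : (M.bn (I.f a₀)).j (g z.1, Cht98.li 1 b z.2) ∈ M.sys.U π :=
    hπ.adj _ b hπa ⟨⟨_, rfl⟩, (M.bn _).j_mem_sd.2 l2⟩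
  have hs : W.nj c (I.f a₀) (g z.1, Cht98.li 1 b z.2) ∈ Ψ.source := k1 ▸ .inl ⟨_, hq, rfl⟩
  have hl : M.Lit m.1 c.1 (I.f a₀) (Cht98.li 1 b z.2) := ⟨l1.le, .inl ⟨hc, n0⟩⟩
  have hl' : M'.Lit m'.1 c'.1 (I.f' a₀) (Cht98.li 1 b z.2) := ⟨l1.le, .inl ⟨hc', n0⟩⟩
  refine ⟨s2 ▸ hs, ?_, funext₂ fun i j => ?_, ?_⟩
  · rw [s2, s3]
    exact (k3 _ hq).trans (congrArg (W'.φ c') (hj _ _))
  · rw [← K.P i j z s1, s2]
    exact rot_lit (q := (g z.1, Cht98.li 1 b z.2)) ho ho' (M.sys.isOpen_U π) k3 hq hs hn hl hl'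
      (.inl hc) (.inl hc') ((Mark.tv_mem hc' _).trans (Mark.tv_mem hc _).symm) (.inr n0) i j
  · rw [← K.l z s1, s2]
    exact congrArg Line51.rl ((k4 _ (Mark.Lit.not_mem (q := (g z.1, Cht98.li 1 b z.2)) hl)).trans
      (tw_lit Λ Λ' (q := (g z.1, Cht98.li 1 b z.2)) hL (h1 hq) hl hl'))

section gp
variable {lam : Type} [Fintype lam] {Z Z' : Mf 4} {Y : Mf 3} [CompactSpace Y.M]
  {D : YD Y.I Y.M κ lam} {B : Base Z.M (Option κ) lam} {G : Geo Z.I Z.M (Option κ) lam}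
  {B' : Base Z'.M (Option κ) lam} {G' : Geo Z'.I Z'.M (Option κ) lam} {K : Nk D B G}
  {K' : Nk D B' G'} {o : Bool} {φ : OpenPartialHomeomorph Z.M Z'.M}
  {U : Z.M → Option κ → Option κ → ℝ} {v : Z.M → CL (Eu lam) (Eu lam)}

theorem Lt.symm (h : Lt K K' o φ U v) (hD : D.OK) :
    Lt K' K o φ.symm (fun y a b => U (φ.symm y) b a) fun y => trn (v (φ.symm y)) := fun z hz => by
  obtain ⟨k1, k2, k3, k4⟩ := h z hz
  have k5 : φ.symm (K'.ψ z) = K.ψ z := k2 ▸ φ.left_inv k1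
  refine ⟨k2 ▸ φ.map_source k1, k5, funext₂ fun i j => ?_, ?_⟩
  · simp only [k5, k3]; exact D.Z.P_symm j i z
  · simp only [k5, k4, Eqv71.trn_of_sym (hD.B.lsym z)]

/-- a global patch between backgrounds with one end -/
theorem exists_gl {O : Set Z.M} {O' : Set Z'.M} {E E' : Type} [Fintype E] [Fintype E'] [Unique E]
    [Unique E'] {e : E → En B G} {e' : E' → En B' G'} {N : ND Y.M lam} (g : GEq B G B' G' φ U v)
    (h1 : φ.source = O) (h2 : φ.target = O') (h : Lt K K' o φ U v)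
    (k : e default = ⟨⟨Y, D, N⟩, K, o⟩) (k' : e' default = ⟨⟨Y, D, N⟩, K', o⟩) :
    ∃ (p : GP (⟨B, G, O, E, e⟩ : BG κ lam Z) ⟨B', G', O', E', e'⟩) (f : E ≃ E'), p.Gl f := by
  refine ⟨⟨φ, U, v, g, h1.le, h2.le⟩, Equiv.ofUnique _ _, h1, h2, fun a => ⟨⟨Y, D, N⟩, K, K', o, ?_, ?_,
    0, 0, fun z hz => ?_⟩⟩
  · rw [Subsingleton.elim a default]; exact k
  · rw [Subsingleton.elim (Equiv.ofUnique E E' a) default]; exact k'
  · simpa only [add_zero] using h z hz.2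

end gp

end Crest.Agent.X212.Klp2.Mx
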