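import Crest.Agent.X212.Brk99.Glue
import Crest.Agent.X212.Hd28.Exs

/-!
# Row 212, SB-CLS (helper2): any connection can be closed up
-/

set_option autoImplicit false
set_option linter.unusedSectionVars false
noncomputable section
open scoped Manifold ContDiff Topology InnerProductSpace
open MeasureTheory Function Filter Set

namespace Crest.Agent.X212.Klp2.Cls
open An M Cyl58 Cyf70 Nd18 Pj41 Tmp64 Brk99
open Abel74 (RedOn)
open Loc8 (Rd)
open Eqv71 (cj)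

variable {κ lam : Type} [Fintype κ] [Fintype lam]
  {Z Z' : Mf 4} {ι : Type} [Fintype ι] {Y : ι → Mf 3} [∀ a, CompactSpace (Y a).M]
  {D : ∀ a, YD (Y a).I (Y a).M κ lam} {B : Base Z.M (Option κ) lam} {G : Geo Z.I Z.M (Option κ) lam}
  {B' : Base Z'.M (Option κ) lam} {G' : Geo Z'.I Z'.M (Option κ) lam}
  {K : ∀ a, Bool → Nk (D a) B G} {φ : Z.M → Z'.M} {S : ι → Set Z.M}
  {x : Cfg Z.M (Option κ) lam 0} {β : ∀ a, YC (Y a).M κ lam} {R : ℝ}
  {v : ∀ a, Bool → (Y a).M × ℝ → CL x.m.V (β a).m.V}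
  {K' : ∀ a, Nk (D a) B' G'} {l : ι → ℝ} {χ : Z'.M → Z.M}

variable (K x β R v) in
/-- `x` is `β` at the depths `(R - 1, R)` -/
def Sg : Prop := ∀ a b, Iso0 (IC (Y a).I) ((K a b).pb x).m (cy (β a)).m (dp (Y a).M b (Ioo (R - 1) R)) (v a b) ∧
  Par0 (D a).Z ((K a b).pb x).W (cy (β a)).W (dp (Y a).M b (Ioo (R - 1) R)) (v a b)

variable (K) in
/-- the end as an `En` -/
@[reducible] def en (p : ι × Bool) : En B G :=
  ⟨⟨Y p.1, D p.1, ⟨Empty, Empty, Empty.elim, Empty.elim, 0, 0, 0, Fin.elim0⟩⟩, K p.1 p.2, !p.2⟩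

theorem ht_eq (p : ι × Bool) (s : ℝ) : (en K p).ht s = {t | s < pm (!p.2) * t} := by
  obtain ⟨a, _ | _⟩ := p <;> simp [En.ht, pm]

/-- straightening the ends -/
theorem exists_sg (F : Fx K φ S) (hB : B.OK Z.I) (hG : G.OK B) (hD : ∀ a, (D a).OK) (hx : x.Adm B G)
    (hβ : ∀ a, (D a).Adm (β a))
    (dj : ∀ a a' b b', (a, b) ≠ (a', b') → Disjoint (K a b).ψ.target (K a' b').ψ.target) :
    ∃ W Φ, (⟨x.m, W, Φ, x.z⟩ : C0 Z κ lam).Adm B G ∧
      (∀ z ∉ ⋃ a, ⋃ b, (K a b).ψ.target, ∀ i, W i z = x.W i z) ∧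
      ∃ R, 1 ≤ R ∧ ∃ v, Sg K ⟨x.m, W, Φ, x.z⟩ β R v := by
  classical
  have h0 : ∀ p : ι × Bool, (en K p).ht 0 ⊆ (en K p).K.J := fun p => by
    rw [ht_eq]; exact (F.J p.1 p.2).ge
  have hU : ∀ p : ι × Bool, (en K p).U 0 ⊆ (K p.1 p.2).ψ.target := by
    rintro p _ ⟨z, hz, rfl⟩
    exact (K p.1 p.2).ψ.map_source ((K p.1 p.2).mem_src.2 (h0 p hz.2))
  have H : ∀ T : Finset (ι × Bool), ∃ W Φ, (⟨x.m, W, Φ, x.z⟩ : C0 Z κ lam).Adm B G ∧
      (∀ z ∉ ⋃ a, ⋃ b, (K a b).ψ.target, ∀ i, W i z = x.W i z) ∧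
      ∀ p ∈ T, (en K p).Sd ⟨x.m, W, Φ, x.z⟩ (β p.1) := by
    refine Finset.induction ⟨x.W, x.Φ, hx, fun _ _ _ => rfl, by simp⟩ fun p T hp ⟨W, Φ, k1, k2, k3⟩ => ?_
    obtain ⟨W', Φ', l1, l2, l3⟩ := Hd28.exists_sd (e := en K p) (hD p.1) hB hG k1 (hβ p.1) (h0 p)
    refine ⟨W', Φ', l1, fun z hz i => ((l3 z fun k => hz (mem_iUnion₂.2 ⟨p.1, p.2, hU p k⟩)).1 i).trans
      (k2 z hz i), fun p' h => ?_⟩
    rcases Finset.mem_insert.1 h with rfl | h'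
    · exact l2
    · exact Hd28.sd_congr (s := 0) (k3 p' h') fun z hz => l3 z fun k =>
        disjoint_left.1 (dj p.1 p'.1 p.2 p'.2 fun e => hp (by rwa [show p = p' from e])) (hU p k) (hU p' hz)
  obtain ⟨W, Φ, k1, k2, k3⟩ := H Finset.univ
  choose w ζ s h using fun p => k3 p (Finset.mem_univ p)
  obtain ⟨R, r1, r2⟩ := ((eventually_ge_atTop 1).and
    (eventually_all.2 fun p => eventually_ge_atTop (s p + 1))).exists
  refine ⟨W, Φ, k1, k2, R, r1, fun a b => w (a, b), fun a b => ?_⟩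
  have o : IsOpen (univ ×ˢ (en K (a, b)).ht (s (a, b)) : Set ((Y a).M × ℝ)) := by
    rw [ht_eq]; exact isOpen_univ.prod (isOpen_lt continuous_const (by fun_prop))
  have m : dp (Y a).M b (Ioo (R - 1) R) ⊆ univ ×ˢ (en K (a, b)).ht (s (a, b)) := fun z hz => by
    rw [ht_eq]; exact ⟨trivial, lt_of_le_of_lt (by linarith [r2 (a, b)]) hz.1⟩
  have A : AdmOn ((K a b).pb ⟨x.m, W, Φ, x.z⟩) (D a).B (D a).G (univ ×ˢ (en K (a, b)).ht (s (a, b))) :=
    (One97.admOn_pb (K a b) isOpen_univ (admOn_univ.2 k1)).mono fun _ hz =>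
      ⟨(K a b).mem_src.2 ((h (a, b)).sub hz.2), trivial⟩
  have C := (admOn_univ.2 (hβ a).adm).mono (subset_univ (univ ×ˢ (en K (a, b)).ht (s (a, b))))
  exact ⟨(Iso0.of_mEq (m' := (cy (β a)).m) o (h (a, b)).eq.m A.ok C.ok).mono m,
    ((par0_iff (C.conn.proj' (hD a).B)).2 (h (a, b)).eq.W).mono m⟩

/-- the transition functions -/
theorem trans_eq (g : Gm K φ R K' l) (hR : 1 ≤ R) (hχ : LeftInverse χ φ) (h : Sg K x β R v)
    (a : ι) {z : Z'.M} (hz : z ∈ φ '' O0 K R ∩ (K' a).tm ⁻¹' Ioo (R - 1) (l a - R + 1)) :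
    ∃ b O, IsOpen O ∧ z ∈ O ∧ (∀ w ∈ O, bb (l a) ((K' a).tm w) = b) ∧
      Eq0 G'.F (cmC χ (z0 x)) (cmC (K' a).ψ.symm (z0 (cy (β a)))) O
        (fun w => v a b (ts (l a) b ((K' a).ψ.symm w))) := by
  have hl := g.len a
  have h1 : pm (!bb (l a) ((K' a).tm z)) * ((K' a).tm z + -bif bb (l a) ((K' a).tm z) then l a else 0) ∈
      Ioo (R - 1) R := by
    have k := (g.cov z).1 hz.1 a
    have k1 := hz.2.1
    have k2 := hz.2.2
    rw [mem_Icc, not_and_or, not_le, not_le] at k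
    unfold bb
    by_cases q : l a / 2 ≤ (K' a).tm z <;> rcases k with k | k <;> simp [q, pm] <;>
      constructor <;> linarith
  generalize bb (l a) ((K' a).tm z) = b at h1
  let O := {w | pm (!b) * ((K' a).tm w + -bif b then l a else 0) ∈ Ioo (R - 1) R}
  have o : IsOpen O := isOpen_Ioo.preimage (continuous_const.mul ((K' a).cont.add continuous_const))
  have t : O ⊆ (K' a).ψ.target := fun w hw => by
    rw [(K' a).tgt, mem_preimage, show Jv _ _ = _ from g.J a]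
    have k1 := hw.1
    have k2 := hw.2
    cases b <;> simp [pm] at k1 k2 <;> constructor <;> linarith
  have mp : MapsTo (ts (l a) b ∘ (K' a).ψ.symm) O (dp (Y a).M b (Ioo (R - 1) R)) := fun w hw => by
    simp only [dp, ts, comp_apply, mem_ofPred_eq, (K' a).snd_symm (t hw)]; exact hw
  have fr := ((K' a).rel'.mono o t).trans (gRel_ts (D a) (l a) b).fr (mapsTo_univ _ _)
  have hk : ∀ w ∈ O, (K a b).ψ (ts (l a) b ((K' a).ψ.symm w)) = χ w := fun w hw => by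
    have := g.mt a b ((K' a).ψ.symm w).1 (((K' a).ψ.symm w).2 + -bif b then l a else 0)
      ⟨lt_of_le_of_lt (by linarith) (mp hw).1, (mp hw).2⟩
    rw [← hχ ((K a b).ψ _), ts, this, neg_add_cancel_right, Prod.mk.eta, (K' a).ψ.right_inv (t hw)]
  have i := cm_iso0 (fun w hw => (fr.ld w hw).contMDiffAt) mp (h a b).1
  refine ⟨b, O, o, h1, fun w hw => bb_eq hl (by linarith [hw.2]), ⟨⟨i.su, fun w hw => ?_, i.J,
    fun w hw => ?_, fun w hw => ?_⟩, fun w hw k => ?_, fun _ _ => (map_zero _).symm, rfl⟩⟩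
  · dsimp only; rw [← hk w hw]; exact i.iso w hw
  · dsimp only; rw [← hk w hw]; exact i.ρ w hw
  · dsimp only; rw [← hk w hw]; exact i.j w hw
  · dsimp only
    rw [← hk w hw]
    exact fr.par0 mp (h a b).2 w hw k

theorem cls_at [Nonempty Z.M] (F : Fx K φ S) (g : Gm K φ R K' l) (hR : 1 ≤ R) (hG : G.OK B)
    (hG' : G'.OK B') (hD : ∀ a, (D a).OK) (hx : x.Adm B G) (hβ : ∀ a, (D a).Adm (β a))
    (h : Sg K x β R v) :
    ∃ y : Cfg Z'.M (Option κ) lam 0, y.Adm B' G' ∧ ∀ Q : Set Z'.M, IsOpen Q → Q ⊆ φ '' O0 K R →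
      (∀ ξ, RedOn G.F x.m x.W (φ ⁻¹' Q) ξ → ∃ ξ', Rd G'.F y.m y.W Q ξ') ∧
      ∀ (P : Set Z'.M) (f : Z'.M → ℝ), MeasurableSet P → P ⊆ Q →
        ∫ z in P, f z * ‖y.m.Fg G'.F y.W z‖ ^ 2 ∂G'.F.μ =
          ∫ z in φ ⁻¹' P, f (φ z) * ‖x.m.Fg G.F x.W z‖ ^ 2 ∂G.F.μ ∧
        ∫ z in P, f z * y.m.kd B' G'.F y.W z ∂G'.F.μ =
          ∫ z in φ ⁻¹' P, f (φ z) * x.m.kd B G.F x.W z ∂G.F.μ := by
  let Φ := F.oe.pd.toOpenPartialHomeomorph.restrOpen _ (O0_open (K := K) R)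
  have es : Φ.source = O0 K R := univ_inter _
  have et : Φ.target = φ '' O0 K R := by rw [← Φ.image_source_eq_target, es]; rfl
  have hχ : LeftInverse Φ.symm φ := leftInverse_invFun F.oe.inj
  have g1 : GRel B G B' G' Φ Φ.source := es ▸ g.rel
  have g2 := gRel_symm g1 hG hG'
  have g3 := fun a => gRel_symm (nk_gRel (K' a)) (hD a).G hG'
  have t : ∀ a, (K' a).tm ⁻¹' Ioo (R - 1) (l a - R + 1) ⊆ (K' a).ψ.target := fun a w hw => by
    rw [(K' a).tgt, mem_preimage, show Jv _ _ = _ from g.J a]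
    exact ⟨by linarith [hw.1], by linarith [hw.2]⟩
  have o := fun a => (isOpen_Ioo (a := R - 1) (b := l a - R + 1)).preimage (K' a).cont
  have a0 : AdmOn (cmC Φ.symm (z0 x)) B' G' Φ.target := g2.admOn_iff.2 ((admOn_univ (c := z0 x).2
    ⟨hx.ok, hx.conn, contMDiff_const, fun _ => map_zero _, .inl rfl⟩).mono (subset_univ _))
  have a1 := fun a => ((g3 a).mono (o a) (t a)).admOn_iff.2
    ((admOn_univ (c := z0 (cy (β a))).2 ⟨(hβ a).adm.ok, (hβ a).adm.conn, contMDiff_const,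
      fun _ => map_zero _, .inl rfl⟩).mono (subset_univ _))
  have T := fun a z hz => trans_eq g hR hχ h a (z := z) hz
  rw [← et] at T
  have cv : ∀ z, z ∉ Φ.target → ∃ a, (K' a).tm z ∈ Icc R (l a - R) := fun z hz => by
    rw [et, g.cov] at hz; simpa using hz
  have cv' : ∀ {a z}, (K' a).tm z ∈ Icc R (l a - R) → z ∈ (K' a).tm ⁻¹' Ioo (R - 1) (l a - R + 1) :=
    fun k => ⟨by linarith [k.1], by linarith [k.2]⟩
  have dj : Pairwise fun a a' => Disjoint ((K' a).tm ⁻¹' Ioo (R - 1) (l a - R + 1))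
    ((K' a').tm ⁻¹' Ioo (R - 1) (l a' - R + 1)) := fun a a' k => (g.dj k).mono (t a) (t a')
  obtain ⟨y, u0, u, y1, y2, -, -⟩ := star (t := fun a w => v a (bb (l a) ((K' a).tm w))
      (ts (l a) (bb (l a) ((K' a).tm w)) ((K' a).ψ.symm w))) hG' Φ.open_target o
    (fun z => (em _).imp_right fun k => (cv z k).imp fun _ => cv') dj a0 a1 fun a => eq0_loc fun z hz =>
      let ⟨_, O, k1, k2, k3, k4⟩ := T a z hz
      ⟨O, _, k2, k4, (k1.eventually_mem k2).mono fun w hw => by dsimp only; rw [k3 w hw]⟩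
  have ok := fun O => OK.on (I := Z'.I) y1.ok O
  have sm := fun z a => y1.conn.cc.sm a z
  have is := g1.fr.iso hG.vol hG'.vol
  refine ⟨y, y1, fun Q hQ hs => ⟨fun ξ r => ?_, fun P f mP hP => ?_⟩⟩
  · rw [← et] at hs
    exact rd_patch (J := Unit) (U := fun _ => Q) (f := fun _ z => cj (u0 z) (ξ (Φ.symm z)))
      (fun _ => hQ) (fun _ => red_iso (red_cm (g2.fr.mono hQ hs)
        (fun z hz => show Φ (Φ.symm z) ∈ Q by rw [Φ.right_inv (hs hz)]; exact hz) r)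
        (y2.iso.mono hs) (a0.ok.mono hs) (ok _) (fun b z _ => hx.conn.sk b _)
        (fun b z _ => y1.conn.sk b z) (y2.par.mono hs)) (fun _ _ _ _ _ => rfl) hQ fun z hz => ⟨(), hz⟩
  have mP' : MeasurableSet (φ ⁻¹' P) := F.oe.contMDiff.continuous.measurable mP
  have s1 : P ⊆ Φ.target := et ▸ hP.trans hs
  have s2 : φ ⁻¹' P ⊆ Φ.source := fun z hz => by
    obtain ⟨w, k1, k2⟩ := hs (hP hz)
    rw [es, ← F.oe.inj k2]; exact k1
  have key : ∀ (f' : Z'.M → ℝ) (f : Z.M → ℝ), (∀ z ∈ Φ.source, f' (φ z) = f z) →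
      ∫ z in P, f' z ∂G'.F.μ = ∫ z in φ ⁻¹' P, f z ∂G.F.μ := fun f' f ef => by
    have k := Nka63.setIntegral_comp is (P.indicator f')
    rw [setIntegral_indicator mP, setIntegral_congr_fun Φ.open_source.measurableSet
      (g := (φ ⁻¹' P).indicator f) fun z hz => by
        by_cases k : φ z ∈ P
        · exact (indicator_of_mem k _).trans ((ef z hz).trans (indicator_of_mem (s := φ ⁻¹' P) k _).symm)
        · exact (indicator_of_notMem k _).trans (indicator_of_notMem (s := φ ⁻¹' P) k _).symm,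
      setIntegral_indicator mP', inter_eq_right.2 s1, inter_eq_right.2 s2] at k
    exact k.symm
  refine ⟨key _ _ fun z hz => congrArg _ ?_, key _ _ fun z hz => congrArg _ ?_⟩
  · have k := Φ.map_source hz
    have := Loc66.norm_Fg_loc y2.iso Φ.open_target a0.ok (ok _) (fun b => a0.conn.sm b _ k) (sm _) y2.par k
    rwa [Fg_cm g2.fr k, Φ.left_inv hz] at this
  · have k := Φ.map_source hz
    have := Loc66.kd_loc y2.iso Φ.open_target a0.ok (ok _) (fun b => a0.conn.sm b _ k) (sm _) y2.par k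
    rwa [kd_cm g2 k, Φ.left_inv hz] at this

/-- **CLS** -/
theorem cls [Nonempty Z.M] (F : Fx K φ S) (hB : B.OK Z.I) (hG : G.OK B) (hD : ∀ a, (D a).OK)
    (hx : x.Adm B G) (hβ : ∀ a, (D a).Adm (β a))
    (dj : ∀ a a' b b', (a, b) ≠ (a', b') → Disjoint (K a b).ψ.target (K a' b').ψ.target) :
    ∃ R > 0, ∀ (G' : Geo Z'.I Z'.M (Option κ) lam) (K' : ∀ a, Nk (D a) B' G') (l : ι → ℝ), G'.OK B' →
      Gm K φ R K' l → ∃ y : Cfg Z'.M (Option κ) lam 0, y.Adm B' G' ∧ ∀ Q : Set Z'.M, IsOpen Q →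
        Q ⊆ φ '' (⋃ a, ⋃ b, (K a b).ψ.target)ᶜ →
        (∀ ξ, RedOn G.F x.m x.W (φ ⁻¹' Q) ξ → ∃ ξ', Rd G'.F y.m y.W Q ξ') ∧
        ∀ (P : Set Z'.M) (f : Z'.M → ℝ), MeasurableSet P → P ⊆ Q →
          ∫ z in P, f z * ‖y.m.Fg G'.F y.W z‖ ^ 2 ∂G'.F.μ =
            ∫ z in φ ⁻¹' P, f (φ z) * ‖x.m.Fg G.F x.W z‖ ^ 2 ∂G.F.μ ∧
          ∫ z in P, f z * y.m.kd B' G'.F y.W z ∂G'.F.μ =
            ∫ z in φ ⁻¹' P, f (φ z) * x.m.kd B G.F x.W z ∂G.F.μ := by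
  obtain ⟨W, Φ, k1, k2, R, r1, v, h⟩ := exists_sg F hB hG hD hx hβ dj
  refine ⟨R, by linarith, fun G' K' l hG' g => ?_⟩
  obtain ⟨y, y1, y2⟩ := cls_at F g r1 hG hG' hD k1 hβ h
  refine ⟨y, y1, fun Q hQ hs => ?_⟩
  have s0 : (⋃ a, ⋃ b, (K a b).ψ.target)ᶜ ⊆ O0 K R := fun z hz a b => by
    by_contra k
    refine hz (mem_iUnion₂.2 ⟨a, b, ?_⟩)
    rw [(K a b).tgt, mem_preimage, show Jv _ _ = _ from F.J a b]
    exact lt_of_lt_of_le (by linarith) (not_lt.1 k)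
  obtain ⟨y3, y4⟩ := y2 Q hQ (hs.trans (image_mono s0))
  have e : ∀ z ∈ φ ⁻¹' Q, ∀ i, W i z = x.W i z := fun z hz => by
    obtain ⟨w, l1, l2⟩ := hs hz
    rw [← F.oe.inj l2]; exact k2 w l1
  have oQ : IsOpen (φ ⁻¹' Q) := hQ.preimage F.oe.contMDiff.continuous
  have e' : ∀ z ∈ φ ⁻¹' Q, ∀ i, W i =ᶠ[𝓝 z] x.W i := fun z hz i =>
    (oQ.eventually_mem hz).mono fun w hw => e w hw i
  refine ⟨fun ξ r => y3 ξ (red_W r fun i z hz => e z hz i), fun P f mP hP => ?_⟩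
  have mP' : MeasurableSet (φ ⁻¹' P) := F.oe.contMDiff.continuous.measurable mP
  exact ⟨(y4 P f mP hP).1.trans (setIntegral_congr_fun mP' fun z hz => by
      simp only [Loc66.Fg_congr (e' z (hP hz))]),
    (y4 P f mP hP).2.trans (setIntegral_congr_fun mP' fun z hz => by
      simp only [Loc66.kd_congr (e' z (hP hz))])⟩

end Crest.Agent.X212.Klp2.Cls
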