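import Crest.Agent.X212.Kof81.Defs
import Crest.Agent.X212.An.Str

/-! Row 212, FACT: strata which are defined by finitely many open properties of the objects. -/

set_option autoImplicit false
set_option linter.unusedSectionVars false
noncomputable section
open scoped Manifold ContDiff Topology InnerProductSpace
open MeasureTheory Set Function Filter

namespace Crest.Agent.X212.Klp2
open An An.Job M Nd18 Mod61
open Nk89 (RNear)

variable {Wi : Type} {X : Mf 4} {A κ lam : Type} [Fintype A] [Fintype κ] [Fintype lam]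
  [DecidableEq lam] {M : Mark X A κ} {W : World M} {N : ML M lam} {Λ : Lns W N}
  {A' h : Type} [Fintype A'] [DecidableEq A'] [Fintype h] {r n : ℕ}
  {J : Job Wi Λ A' h r n} {c : M.Cl} {σ : Cel A'} {Adm : (Wi →₀ ℝ) → Prop} {n₀ : ℤ}
  {FR : Kof81.Ty J}

/-- the discrete data: the open properties, the kept cuts, tightness -/
abbrev Dx (T h : Type) : Type := Set T × Set h × Prop

variable (J c) in
/-- open properties `ty`, the parts `P` which are active in a stratum, what regularity gives -/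
structure Ot : Type 1 where
  T : Type
  P : Type
  ty : J.Obc c → Set T
  act : Dx T h → P → Prop
  ok : P → (Wi →₀ ℝ) → J.Obc c → Prop

namespace Ot
variable (D : Ot J c)

/-- the data of an object -/
def dx (y : J.Obc c) : Dx D.T h := (D.ty y, y.H, y.Tight)

/-- what regularity of all active parts gives -/
def Ok (q : Wi →₀ ℝ) (y : J.Obc c) : Prop := ∀ j, D.act (D.dx y) j → D.ok j q y

variable (σ Adm) in
/-- the strata -/
@[reducible] def stra (mo : ∀ s j, D.act s j → Mo Wi (J.Obc c)) (Fa : Prop) : J.Stra c where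
  S := Dx D.T h × J.En c σ Adm
  en s := s.2
  wt s := s.1.1ᶜ.ncard
  mem s y := D.dx y = s.1 ∧ y.en = s.2 ∧ ¬y.Top
  face s := Fa ∧ s.1.2.2 ∧ s.1.1 = univ
  Jp s := {j // D.act s.1 j}
  Ic s j := (mo s.1 j.1 j.2).Ic
  P s j := (mo s.1 j.1 j.2).Pb
  rep {s j} i := (mo s.1 j.1 j.2).rep i

variable (σ Adm n₀ FR) in
/-- the leaves -/
structure Hyp : Prop where
  finT : Finite D.T
  finP : Finite D.P
  fin : J.FinE σ c Adm
  op : ∀ (α : Type) (𝒰 : Ultrafilter α) (q : α → Wi →₀ ℝ) (y : α → J.Obc c) q₀ y₀,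
    Sol σ q₀ y₀ → (∀ᶠ i in (𝒰 : Filter α), Sol σ (q i) (y i)) → Str 𝒰 y y₀ →
    ∀ t ∈ D.ty y₀, ∀ᶠ i in (𝒰 : Filter α), t ∈ D.ty (y i)
  mo : ∀ s j, D.act s j → ∃ (G : Mo Wi (J.Obc c)) (P : J.Obc c → Prop),
    (∀ y, D.dx y = s → P y) ∧ G.Ax Adm (fun q y => Sol σ q y ∧ P y)
      (fun _ 𝒰 y y₀ => Str 𝒰 y y₀) (fun _ => True) ∧
    ∀ q y, Adm q → Sol σ q y → P y → G.Reg q y → D.ok j q y
  kill : ∀ q y, Adm q → Sol σ q y → ¬y.Top → D.Ok q y →
    Kof81.Fa J n₀ σ c ∧ y.Tight ∧ D.ty y = univ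
  fc : ∀ q y, Adm q → Sol σ q y → Kof81.Fa J n₀ σ c → y.Tight → D.ty y = univ →
    (∃ z, y.x.Φ z ≠ 0) ∧ J.unc c = univ ∧ (D.Ok q y → FR σ c q y)

variable {D}

theorem ty_eq {s : Dx D.T h} {y : J.Obc c} (e : D.dx y = s) : D.ty y = s.1 := congrArg Prod.fst e

theorem tight_iff {s : Dx D.T h} {y : J.Obc c} (e : D.dx y = s) : y.Tight ↔ s.2.2 :=
  iff_of_eq (congrArg (·.2.2) e)

/-- **the strata** -/
theorem Hyp.strOK (H : D.Hyp σ Adm n₀ FR) : ∃ T, Kof81.StrOK J n₀ FR Adm σ c T := by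
  have := H.finT
  have := H.finP
  have : Finite (J.En c σ Adm) := H.fin.to_subtype
  choose mo P h1 h2 h3 using H.mo
  have rg : ∀ s q y, Adm q → Sol σ q y → (D.stra σ Adm mo (Kof81.Fa J n₀ σ c)).mem s y →
      (D.stra σ Adm mo (Kof81.Fa J n₀ σ c)).Reg s q y → D.Ok q y := fun s q y a b e k j hj =>
    have hj' : D.act s.1 j := e.1 ▸ hj
    h3 _ _ hj' q y a b (h1 _ _ hj' y e.1) (k ⟨j, hj'⟩)
  refine ⟨D.stra σ Adm mo (Kof81.Fa J n₀ σ c), ⟨inferInstance, fun _ => Subtype.finite,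
    fun s j => (h2 _ _ j.2).ax,
    fun q y a b e => ⟨(_, ⟨_, q, y, a, b, rfl⟩), rfl, rfl, e⟩, fun _ _ _ _ _ e => e.2.2,
    fun _ _ _ _ _ e => e.2.1,
    fun s j i q y x a b e => (h2 _ _ j.2).sol i q y x a ⟨b, h1 _ _ j.2 y e.1⟩,
    fun s j q y a b e => (h2 _ _ j.2).dens q y a ⟨b, h1 _ _ j.2 y e.1⟩, fun s q y f a b e k => ?_,
    fun s q y f _ _ e => ⟨f.1, (tight_iff e.1).2 f.2.1⟩, fun s q₀ a α 𝒰 q y y₀ b d e f => ?_⟩,
    fun s q y f a b e => ?_⟩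
  · have k := H.kill q y a b e.2.2 (rg s q y a b e k)
    exact f ⟨k.1, (tight_iff e.1).1 k.2.1, (ty_eq e.1).symm.trans k.2.2⟩
  · have ex : ∀ {Q' : α → Prop} {Q : Prop}, (∀ᶠ i in (𝒰 : Filter α), Q' i) →
        (∀ i, D.dx (y i) = s.1 ∧ (y i).en = s.2 ∧ ¬(y i).Top → Q' i → Q) → Q := fun h1 h2 =>
      let ⟨i, k⟩ := (d.and h1).exists; h2 i k.1.2.2 k.2
    have nt : ¬y₀.Top := fun k => ex (f.top k) fun _ k => k.2.2
    have hT : D.ty y₀ ⊆ s.1.1 := fun t k => ex (H.op α 𝒰 q y q₀ y₀ e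
      (d.mono fun _ k => k.2.1) f t k) fun _ k1 k2 => (ty_eq k1.1).le k2
    by_cases hw : D.ty y₀ = s.1.1
    · have m : D.dx y₀ = s.1 := Prod.ext hw (Prod.ext
        (ex f.dis fun _ k1 k2 => k2.1.symm.trans (congrArg (·.2.1) k1.1))
        (propext (ex f.tight fun _ k1 k2 => k2.symm.trans (tight_iff k1.1))))
      exact .inl ⟨⟨m, tendsto_nhds_unique f.en (tendsto_const_nhds.congr'
        (d.mono fun _ k => k.2.2.2.1.symm)), nt⟩, fun j => (h2 _ _ j.2).near q₀ a α 𝒰 q y y₀ b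
          (d.mono fun _ k => ⟨k.1, k.2.1, h1 _ _ j.2 _ k.2.2.1⟩) ⟨e, h1 _ _ j.2 _ m⟩ f⟩
    · refine .inr ⟨(_, ⟨_, q₀, y₀, a, e, rfl⟩), ?_, ⟨rfl, rfl, nt⟩, fun k => (hw ?_).elim⟩
      · exact ncard_lt_ncard (compl_lt_compl_iff_lt.2 (hT.ssubset_of_ne hw))
      · exact hT.antisymm ((subset_univ _).trans (show D.ty y₀ = univ from k.2.2).ge)
  · exact (H.fc q y a b f.1 ((tight_iff e.1).2 f.2.1) ((ty_eq e.1).trans f.2.2)).imp_right
      (And.imp_right fun k t => k (rg s q y a b e t))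

end Ot
end Crest.Agent.X212.Klp2
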