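import Crest.Agent.X212.Nd18.Fk
import Crest.Agent.X212.Klp2.Ot

/-! Row 212, FACT: the strata of the faces on which the wall with neck terms is broken. -/

set_option autoImplicit false
set_option linter.unusedSectionVars false
noncomputable section
open scoped Manifold ContDiff Topology InnerProductSpace
open MeasureTheory Set Function Filter

namespace Crest.Agent.X212.Klp2
open An An.Job M Nd18 Mod61 Fk18

variable {Wi : Type} {X : Mf 4} {A κ lam : Type} [Fintype A] [Fintype κ] [Fintype lam]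
  [DecidableEq lam] {M : Mark X A κ} {W : World M} {N : ML M lam} {Λ : Lns W N}
  {A' h : Type} [Fintype A'] [DecidableEq A'] [Fintype h] {r n : ℕ}
  {J : Job Wi Λ A' h r n} {c : M.Cl} {σ : Cel A'} {Adm : (Wi →₀ ℝ) → Prop}
  (R : Bool → Set (Reg A))

/-- the open properties: spinor, spinor or irreducible, a free piece on the right -/
def tyR (y : J.Obc c) : Set (Option (Bool × Bool × Reg A)) :=
  {t | t.elim (∃ π ∈ y.F (R true), ¬FixP y π) fun t =>
    t.2.2 ∈ R t.2.1 → y.TF t.2.2 ∨ t.1 = true ∧ ¬y.TA t.2.2}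

/-- the pieces with spinor -/
def fS (s : Set (Option (Bool × Bool × Reg A))) (b : Bool) : Set (Reg A) :=
  {π ∈ R b | some (false, b, π) ∈ s}

theorem fS_ty (y : J.Obc c) (b : Bool) : fS R (tyR R y) b = y.F (R b) :=
  Set.ext fun _ => and_congr_right fun k =>
    ⟨fun e => (e k).resolve_right fun e => (nomatch e.1), fun e _ => .inl e⟩

variable {R}

theorem fo_iff {y : J.Obc c} : Fo R y ↔ y.Tight ∧ tyR R y = univ :=
  ⟨fun k => ⟨k.t, eq_univ_of_forall fun t => match t with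
      | none => let ⟨π, a, b⟩ := k.fr; ⟨π, ⟨a, k.F _ _ a⟩, b⟩
      | some _ => fun a => .inl (k.F _ _ a)⟩,
    fun k => ⟨k.1, fun b π a => ((k.2.ge (mem_univ (some (false, b, π)))) a).resolve_right
      fun e => (nomatch e.1), let ⟨π, a, b⟩ := k.2.ge (mem_univ none); ⟨π, a.1, b⟩⟩⟩

/-- **A-STR** -/
theorem stA : StA J c σ Adm := fun n₀ FR R okL okR okI E H => by
  let D : Ot J c :=
    { T := Option (Bool × Bool × Reg A)
      P := Option Bool ⊕ Bool × Reg A
      ty := tyR R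
      act := fun s => Sum.elim (fun j => j.elim (Kof81.Fa J n₀ σ c ∧ s.2.2 ∧ s.1 = univ) fun b =>
        bif b then none ∈ s.1 else (fS R s.1 false).Nonempty) fun j =>
          j.2 ∈ R j.1 ∧ some (false, j) ∉ s.1 ∧ some (true, j) ∈ s.1
      ok := Sum.elim (fun j q y => j.elim (E y → FR σ c q y) fun b => bif b then okR y else okL y)
        fun j _ => okI j.2 }
  have kl : ∀ q y, Adm q → Sol σ q y → D.Ok q y → Kof81.Fa J n₀ σ c ∧ Fo R y ∧ E y :=
    fun q y a b k => H.kill q y a b (fun e => k (.inl (some false)) ((fS_ty R y false).symm ▸ e :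
      (fS R (tyR R y) false).Nonempty)) (k (.inl (some true))) fun b π e => k (.inr (b, π))
        ⟨e.1, fun t => (t e.1).elim e.2.1 fun t => (nomatch t.1), fun _ => .inr ⟨rfl, e.2.2⟩⟩
  refine Ot.Hyp.strOK (D := D) ⟨inferInstanceAs (Finite (Option _)),
    inferInstanceAs (Finite (_ ⊕ _)), H.fin, fun α 𝒰 q y q₀ y₀ a b e t k => ?_, fun s j k => ?_,
    fun q y a b _ k => let t := kl q y a b k; ⟨t.1, fo_iff.1 t.2.1⟩, fun q y a b e t t' => ?_⟩
  · rcases t with _ | ⟨f, s, π⟩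
    · obtain ⟨π, k1, k2⟩ := k
      exact ((e.tf k1.2).and (Ultrafilter.eventually_not.2 fun t => k2 (H.fx H.ok σ H.mem α 𝒰 q y
        q₀ y₀ π (H.pc _ _ k1.1) a (b.and t) e))).mono fun _ t => ⟨π, ⟨k1.1, t.1⟩, t.2⟩
    · by_cases k1 : π ∈ R s
      swap
      · exact .of_forall fun _ t => (k1 t).elim
      rcases k k1 with k | k
      · exact (e.tf k).mono fun _ t _ => .inl t
      · exact (Ultrafilter.eventually_not.2 fun t => k.2 (H.lin α 𝒰 y y₀ π (H.pc _ _ k1)
          (a.ok H.ok H.mem) ((b.and t).mono fun _ t => ⟨t.1.ok H.ok H.mem, t.2⟩) e)).mono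
          fun _ t _ => .inr ⟨k.1, t⟩
  · rcases j with (_ | _ | _) | ⟨b, π⟩
    · obtain ⟨G, g1, g2⟩ := H.Wh k.1
      exact ⟨G, _, fun y e => fo_iff.2 ⟨(Ot.tight_iff e).2 k.2.1, (Ot.ty_eq e).trans k.2.2⟩, g1, g2⟩
    · obtain ⟨G, g⟩ := H.L _ (sep_subset _ _) k
      exact ⟨G, _, fun y e => (fS_ty R y false).symm.trans (congrArg (fS R · false) (Ot.ty_eq e)),
        { g with ker := fun _ _ _ _ _ => trivial }, fun q y a b e => g.ker q y a ⟨b, e⟩⟩
    · obtain ⟨G, g⟩ := H.R' (fS R s.1 true) (sep_subset _ _) s.2.1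
      refine ⟨G, _, fun y e => ?_, { g with ker := fun _ _ _ _ _ => trivial },
        fun q y a b e => g.ker q y a ⟨b, e⟩⟩
      have e' := (fS_ty R y true).symm.trans (congrArg (fS R · true) (Ot.ty_eq e))
      exact ⟨e', congrArg (·.2.1) e, e' ▸ (Ot.ty_eq e).ge k⟩
    · obtain ⟨G, g⟩ := H.I b π k.1 s.2.1
      refine ⟨G, _, fun y e => ?_, { g with ker := fun _ _ _ _ _ => trivial },
        fun q y a b e => g.ker q y a ⟨b, e⟩⟩
      have e' : ¬y.TF π := fun t => k.2.1 ((Ot.ty_eq e).le fun _ => .inl t)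
      exact ⟨e', (((Ot.ty_eq e).ge k.2.2 k.1).resolve_left e').2, congrArg (·.2.1) e⟩
  · have f := fo_iff.2 ⟨t, t'⟩
    obtain ⟨π, k, -⟩ := f.fr
    obtain ⟨z, -, hz⟩ := f.F _ _ k
    exact ⟨⟨z, hz⟩, H.unc e, fun k => k (.inl none) ⟨e, t, t'⟩ (kl q y a b k).2.2⟩

end Crest.Agent.X212.Klp2
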